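import Crest.Prelude.Def_TwoWay

/-!
# The upper-bound machine for one-way liveness

A one-way nondeterministic machine with `h + 2` states (and, after adding unused states, any larger
number) recognizes `liveness h`.
-/

set_option autoImplicit false

namespace Crest.Agent.Lib.TwoWayBeh

open Crest.TwoWay

universe u v

/-- Forces the auto-generated equation lemmas of `wordRel` to live in this module, so that sibling
modules which unfold `wordRel` do not each generate their own copy (a name collision in a common
import closure). Every module of the two-way library that unfolds `wordRel` imports this file. -/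
def wordRel_eq_def_forced := @wordRel.eq_def
def wordRel_eq_1_forced := @wordRel.eq_1
def wordRel_eq_2_forced := @wordRel.eq_2

/-- Relabel the states of a machine along an embedding. -/
def relabel {α : Type v} {S T : Type*} (f : S ↪ T) (M : TwoWayNFA α S) : TwoWayNFA α T where
  start := f M.start
  accept := f '' M.accept
  step t c := {x | ∃ s r m, t = f s ∧ x = (f r, m) ∧ (r, m) ∈ M.step s c}

section relabel
variable {α : Type v} {S T : Type*} (f : S ↪ T) (M : TwoWayNFA α S) (w : List α)

lemma relabel_step_iff (a b : S) (i j : ℕ) :
    (relabel f M).Step w (f a, i) (f b, j) ↔ M.Step w (a, i) (b, j) := by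
  constructor
  · rintro ⟨m, ⟨s, r, m', h1, h2, h3⟩, h4⟩
    have hs : a = s := f.injective h1
    simp only [Prod.mk.injEq] at h2
    obtain ⟨h5, rfl⟩ := h2
    have hr : b = r := f.injective h5
    subst hs hr
    exact ⟨m, h3, h4⟩
  · rintro ⟨m, h3, h4⟩
    exact ⟨m, ⟨a, b, m, rfl, rfl, h3⟩, h4⟩

lemma relabel_accepts_iff : (relabel f M).Accepts w ↔ M.Accepts w := by
  constructor
  · rintro ⟨c, h1, h2⟩
    obtain ⟨s, hs, hsc⟩ := h2
    -- all reachable configurations are images
    have key : ∀ y : T × ℕ, Relation.ReflTransGen ((relabel f M).Step w) (f M.start, 0) y →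
        ∃ b, y.1 = f b ∧ Relation.ReflTransGen (M.Step w) (M.start, 0) (b, y.2) := by
      intro y hy
      induction hy with
      | refl => exact ⟨M.start, rfl, Relation.ReflTransGen.refl⟩
      | @tail u v _ hs ih =>
        obtain ⟨b, hb, hr⟩ := ih
        obtain ⟨m, ⟨s, r, m', h1, h2, h3⟩, h4⟩ := hs
        have hbs : b = s := f.injective (hb.symm.trans h1)
        subst hbs
        simp only [Prod.ext_iff] at h2
        obtain ⟨h5, h6⟩ := h2
        subst h6
        refine ⟨r, h5, hr.tail ⟨m, h3, h4⟩⟩
    obtain ⟨b, hb, hr⟩ := key c h1
    have : b = s := f.injective (hb.symm.trans hsc.symm)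
    subst this
    exact ⟨(b, c.2), hr, hs⟩
  · rintro ⟨c, h1, h2⟩
    have key : ∀ y : S × ℕ, Relation.ReflTransGen (M.Step w) (M.start, 0) y →
        Relation.ReflTransGen ((relabel f M).Step w) (f M.start, 0) (f y.1, y.2) := by
      intro y hy
      induction hy with
      | refl => exact Relation.ReflTransGen.refl
      | tail _ hs ih =>
        refine ih.tail ?_
        exact (relabel_step_iff f M w _ _ _ _).mpr hs
    exact ⟨(f c.1, c.2), key c h1, ⟨c.1, h2, rfl⟩⟩

lemma relabel_language : (relabel f M).language = M.language := by
  ext w
  exact relabel_accepts_iff f M w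

lemma relabel_noLeftMoves (h : M.NoLeftMoves) : (relabel f M).NoLeftMoves := by
  rintro q a p ⟨s, r, m, _, rfl, h3⟩
  exact h s a (r, m) h3

end relabel

/-- The states of the liveness machine. -/
inductive LiveState (h : ℕ)
  | start : LiveState h
  | acc : LiveState h
  | point : Fin h → LiveState h
  deriving DecidableEq, Fintype

lemma liveState_card (h : ℕ) : Fintype.card (LiveState h) = h + 2 := by
  have e : LiveState h ≃ Option (Option (Fin h)) :=
    { toFun := fun s => match s with
        | .start => none
        | .acc => some none
        | .point a => some (some a)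
      invFun := fun s => match s with
        | none => .start
        | some none => .acc
        | some (some a) => .point a
      left_inv := by rintro (_ | _ | a) <;> rfl
      right_inv := by rintro (_ | _ | a) <;> rfl }
  rw [Fintype.card_congr e]
  simp

/-- The machine: guess the first point, follow the letters, accept at the right end. -/
def liveM (h : ℕ) : TwoWayNFA (Fin h → Fin h → Bool) (LiveState h) where
  start := .start
  accept := {s | s = .acc}
  step s c := match s, c with
    | .start, Cell.leftEnd => {x | ∃ a, x = (.point a, HeadMove.moveRight)}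
    | .point a, Cell.letter R => {x | ∃ b, R a b = true ∧ x = (.point b, HeadMove.moveRight)}
    | .point _, Cell.rightEnd => {x | x = (.acc, HeadMove.stay)}
    | _, _ => ∅

lemma liveM_noLeft (h : ℕ) : (liveM h).NoLeftMoves := by
  intro q a p hp
  rcases q with _ | _ | q <;> rcases a with _ | R | _ <;> simp only [liveM, Set.mem_ofPred_eq, Set.mem_empty_iff_false] at hp
  · obtain ⟨b, rfl⟩ := hp; simp
  · obtain ⟨b, _, rfl⟩ := hp; simp
  · subst hp; simp

lemma scan_succ_of_lt {α : Type*} (w : List α) {i : ℕ} (hi : i < w.length) :
    scan w (i + 1) = Cell.letter w[i] := by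
  simp [scan, List.getElem?_eq_getElem hi]

lemma scan_len {α : Type*} (w : List α) : scan w (w.length + 1) = Cell.rightEnd := by
  simp [scan]

lemma liveM_of_wordRel (h : ℕ) (w : List (Fin h → Fin h → Bool)) (i : ℕ) (hi : i ≤ w.length)
    (a b : Fin h) (hr : wordRel (w.drop i) a b) :
    Relation.ReflTransGen ((liveM h).Step w) (.point a, i + 1) (.point b, w.length + 1) := by
  obtain ⟨k, hk⟩ : ∃ k, k = w.length - i := ⟨_, rfl⟩
  induction k generalizing i a with
  | zero =>
    have : i = w.length := by omega
    subst this
    simp only [List.drop_length] at hr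
    have : a = b := hr
    subst this
    exact Relation.ReflTransGen.refl
  | succ k ih =>
    have hlt : i < w.length := by omega
    rw [List.drop_eq_getElem_cons hlt] at hr
    obtain ⟨c, h1, h2⟩ := hr
    refine Relation.ReflTransGen.head ?_ (ih (i + 1) hlt c h2 (by omega))
    refine ⟨HeadMove.moveRight, ?_, ?_⟩
    · rw [scan_succ_of_lt w hlt]
      exact ⟨c, h1, rfl⟩
    · simp only [movePos]
      rw [if_neg (by omega)]

lemma liveM_accepts_iff (h : ℕ) (w : List (Fin h → Fin h → Bool)) :
    (liveM h).Accepts w ↔ ∃ a b, wordRel w a b := by
  constructor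
  · rintro ⟨c, h1, h2⟩
    -- head induction from the accepting configuration
    have key : ∀ x : LiveState h × ℕ, Relation.ReflTransGen ((liveM h).Step w) x c →
        (x = (.start, 0) → ∃ a b, wordRel w a b) ∧
        (∀ a i, x = (.point a, i + 1) → i ≤ w.length → ∃ b, wordRel (w.drop i) a b) := by
      intro x hx
      induction hx using Relation.ReflTransGen.head_induction_on with
      | refl =>
        have hc : c.1 = .acc := h2
        constructor
        · intro he
          rw [he] at hc
          simp at hc
        · intro a i he _
          rw [he] at hc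
          simp at hc
      | @head u v hs _ ih =>
        obtain ⟨m, h3, h4⟩ := hs
        constructor
        · rintro rfl
          simp only [scan, if_true] at h3
          obtain ⟨a, ha⟩ := h3
          simp only [Prod.ext_iff] at ha
          obtain ⟨ha1, ha2⟩ := ha
          subst ha2
          simp only [movePos] at h4
          have hv2 : v.2 = 1 := by
            split_ifs at h4
            simpa using h4.symm
          obtain ⟨b, hb⟩ := ih.2 a 0 (Prod.ext ha1 hv2) (by omega)
          exact ⟨a, b, by simpa using hb⟩
        · rintro a i rfl hi
          rcases Nat.lt_or_ge i w.length with hlt | hge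
          · simp only at h3
            rw [scan_succ_of_lt w hlt] at h3
            obtain ⟨b, hb1, hb2⟩ := h3
            simp only [Prod.ext_iff] at hb2
            obtain ⟨hb3, hb4⟩ := hb2
            subst hb4
            simp only [movePos] at h4
            have hv2 : v.2 = (i + 1) + 1 := by
              split_ifs at h4 with h5
              simpa using h4.symm
            obtain ⟨c', hc'⟩ := ih.2 b (i + 1) (Prod.ext hb3 hv2) (by omega)
            refine ⟨c', ?_⟩
            rw [List.drop_eq_getElem_cons hlt]
            exact ⟨b, hb1, hc'⟩
          · have : i = w.length := by omega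
            subst this
            simp only [List.drop_length]
            exact ⟨a, rfl⟩
    exact (key _ h1).1 rfl
  · rintro ⟨a, b, hr⟩
    refine ⟨(.acc, w.length + 1), ?_, rfl⟩
    refine Relation.ReflTransGen.head (b := (.point a, 1)) ?_ ?_
    · refine ⟨HeadMove.moveRight, ?_, ?_⟩
      · simp only [scan, if_true]
        exact ⟨a, rfl⟩
      · simp [movePos]
    · refine (liveM_of_wordRel h w 0 (by omega) a b (by simpa using hr)).tail ?_
      refine ⟨HeadMove.stay, ?_, by simp [movePos]⟩
      simp only
      rw [scan_len]
      rfl

lemma liveM_language (h : ℕ) : (liveM h).language = liveness h := by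
  ext w
  exact liveM_accepts_iff h w

/-- For any number of states at least `h + 2` the machine exists. -/
theorem exists_liveness_machine (h n : ℕ) (hn : h + 2 ≤ n) :
    ∃ A : TwoWayNFA (Fin h → Fin h → Bool) (Fin n), A.NoLeftMoves ∧ A.language = liveness h := by
  have hc : Fintype.card (LiveState h) ≤ Fintype.card (Fin n) := by
    rw [liveState_card, Fintype.card_fin]; exact hn
  obtain ⟨f⟩ := Function.Embedding.nonempty_of_card_le hc
  exact ⟨relabel f (liveM h), relabel_noLeftMoves f _ (liveM_noLeft h),
    (relabel_language f _).trans (liveM_language h)⟩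

end Crest.Agent.Lib.TwoWayBeh
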