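import Mathlib

/-!
# The star monoid of two-way behaviours

`Dart Q = Q × Bool`: a crossing of a cut, in state `q`, moving right (`true`) or left (`false`).
A behaviour of a tape segment is a relation on darts: `rel d e` says that entering the segment by
the crossing `d` (from the left when `d.2 = true`, from the right when `d.2 = false`), the machine
can leave it by the crossing `e` (on the right when `e.2 = true`, on the left when `e.2 = false`).

The product of two behaviours is the first-return (star) product. It makes `Beh Q` a monoid.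
-/

set_option autoImplicit false

namespace Crest.Agent.Lib.TwoWayBeh

universe u

/-- A crossing of a cut: a label and a direction, `true` = moving right. -/
abbrev Dart (Q : Type u) := Q × Bool

variable {Q : Type u}

/-- Walks in a two-segment system. The index says in which segment the walker is:
`false` = left segment `A`, `true` = right segment `B`. -/
inductive Walk (A B : Dart Q → Dart Q → Prop) : Bool → Dart Q → Dart Q → Prop
  | exitA {d e : Dart Q} : A d e → e.2 = false → Walk A B false d e
  | exitB {d e : Dart Q} : B d e → e.2 = true → Walk A B true d e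
  | toB {d e o : Dart Q} : A d e → e.2 = true → Walk A B true e o → Walk A B false d o
  | toA {d e o : Dart Q} : B d e → e.2 = false → Walk A B false e o → Walk A B true d o

/-- The star product of two relations on darts. -/
def starRel (A B : Dart Q → Dart Q → Prop) (d e : Dart Q) : Prop := Walk A B (!d.2) d e

/-- Walks in a three-segment system. -/
inductive Walk3 (A B C : Dart Q → Dart Q → Prop) : Fin 3 → Dart Q → Dart Q → Prop
  | exit0 {d e : Dart Q} : A d e → e.2 = false → Walk3 A B C 0 d e
  | go01 {d e o : Dart Q} : A d e → e.2 = true → Walk3 A B C 1 e o → Walk3 A B C 0 d o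
  | go10 {d e o : Dart Q} : B d e → e.2 = false → Walk3 A B C 0 e o → Walk3 A B C 1 d o
  | go12 {d e o : Dart Q} : B d e → e.2 = true → Walk3 A B C 2 e o → Walk3 A B C 1 d o
  | go21 {d e o : Dart Q} : C d e → e.2 = false → Walk3 A B C 1 e o → Walk3 A B C 2 d o
  | exit2 {d e : Dart Q} : C d e → e.2 = true → Walk3 A B C 2 d e

/-- entry segment of a three segment system -/
def entry3 (d : Dart Q) : Fin 3 := if d.2 = true then 0 else 2

section assoc
variable {A B C : Dart Q → Dart Q → Prop}

/-- A walk in `A,B` ends by a left exit or continues into `C`. -/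
lemma walk3_of_walk_ab {i : Bool} {d e : Dart Q} (h : Walk A B i d e) :
    ∀ o, ((e.2 = false ∧ o = e) ∨ (e.2 = true ∧ Walk3 A B C 2 e o)) →
      Walk3 A B C (if i then 1 else 0) d o := by
  induction h with
  | @exitA d e h1 h2 =>
    rintro o (⟨_, rfl⟩ | ⟨h3, _⟩)
    · exact Walk3.exit0 h1 h2
    · simp [h2] at h3
  | @exitB d e h1 h2 =>
    rintro o (⟨h3, _⟩ | ⟨_, h4⟩)
    · simp [h2] at h3
    · exact Walk3.go12 h1 h2 h4
  | toB h1 h2 _ ih =>
    intro o ho
    exact Walk3.go01 h1 h2 (by simpa using ih o ho)
  | toA h1 h2 _ ih =>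
    intro o ho
    exact Walk3.go10 h1 h2 (by simpa using ih o ho)

lemma walk3_of_star_left {i : Bool} {d o : Dart Q} (h : Walk (starRel A B) C i d o) :
    Walk3 A B C (if i then 2 else (if d.2 = true then 0 else 1)) d o := by
  induction h with
  | @exitA d e h1 h2 =>
    have := walk3_of_walk_ab (C := C) (A := A) (B := B) h1 e (Or.inl ⟨h2, rfl⟩)
    cases hd : d.2 <;> simpa [hd] using this
  | @exitB d e h1 h2 => exact Walk3.exit2 h1 h2
  | @toB d e o h1 h2 _ ih =>
    have := walk3_of_walk_ab (C := C) (A := A) (B := B) h1 o (Or.inr ⟨h2, by simpa using ih⟩)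
    cases hd : d.2 <;> simpa [hd] using this
  | @toA d e o h1 h2 _ ih =>
    refine Walk3.go21 h1 h2 ?_
    simpa [h2] using ih

lemma star_left_of_walk3 {s : Fin 3} {d o : Dart Q} (h : Walk3 A B C s d o) :
    (s = 2 → Walk (starRel A B) C true d o) ∧
    (s = 0 → ∀ d0 : Dart Q, (∀ e, Walk A B false d e → Walk A B (!d0.2) d0 e) →
        Walk (starRel A B) C false d0 o) ∧
    (s = 1 → ∀ d0 : Dart Q, (∀ e, Walk A B true d e → Walk A B (!d0.2) d0 e) →
        Walk (starRel A B) C false d0 o) := by
  induction h with
  | @exit0 d e h1 h2 =>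
    refine ⟨by simp, fun _ d0 hd0 => Walk.exitA (hd0 _ (Walk.exitA h1 h2)) h2, by simp⟩
  | @go01 d e o h1 h2 _ ih =>
    refine ⟨by simp, fun _ d0 hd0 => ih.2.2 rfl d0 (fun e' he' => hd0 _ (Walk.toB h1 h2 he')), by simp⟩
  | @go10 d e o h1 h2 _ ih =>
    refine ⟨by simp, by simp, fun _ d0 hd0 => ih.2.1 rfl d0 (fun e' he' => hd0 _ (Walk.toA h1 h2 he'))⟩
  | @go12 d e o h1 h2 _ ih =>
    refine ⟨by simp, by simp, fun _ d0 hd0 => Walk.toB (hd0 _ (Walk.exitB h1 h2)) h2 (ih.1 rfl)⟩
  | @go21 d e o h1 h2 _ ih =>
    refine ⟨fun _ => Walk.toA h1 h2 (ih.2.2 rfl e (fun e' he' => ?_)), by simp, by simp⟩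
    simpa [h2] using he'
  | @exit2 d e h1 h2 =>
    exact ⟨fun _ => Walk.exitB h1 h2, by simp, by simp⟩

/-- A walk in `B,C` ends by a right exit or continues into `A`. -/
lemma walk3_of_walk_bc {i : Bool} {d e : Dart Q} (h : Walk B C i d e) :
    ∀ o, ((e.2 = true ∧ o = e) ∨ (e.2 = false ∧ Walk3 A B C 0 e o)) →
      Walk3 A B C (if i then 2 else 1) d o := by
  induction h with
  | @exitA d e h1 h2 =>
    rintro o (⟨h3, _⟩ | ⟨_, h4⟩)
    · simp [h2] at h3
    · exact Walk3.go10 h1 h2 h4
  | @exitB d e h1 h2 =>
    rintro o (⟨_, rfl⟩ | ⟨h3, _⟩)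
    · exact Walk3.exit2 h1 h2
    · simp [h2] at h3
  | toB h1 h2 _ ih =>
    intro o ho
    exact Walk3.go12 h1 h2 (by simpa using ih o ho)
  | toA h1 h2 _ ih =>
    intro o ho
    exact Walk3.go21 h1 h2 (by simpa using ih o ho)

lemma walk3_of_star_right {i : Bool} {d o : Dart Q} (h : Walk A (starRel B C) i d o) :
    Walk3 A B C (if i then (if d.2 = true then 1 else 2) else 0) d o := by
  induction h with
  | @exitA d e h1 h2 => exact Walk3.exit0 h1 h2
  | @exitB d e h1 h2 =>
    have := walk3_of_walk_bc (A := A) (B := B) (C := C) h1 e (Or.inl ⟨h2, rfl⟩)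
    cases hd : d.2 <;> simpa [hd] using this
  | @toB d e o h1 h2 _ ih =>
    refine Walk3.go01 h1 h2 ?_
    simpa [h2] using ih
  | @toA d e o h1 h2 _ ih =>
    have := walk3_of_walk_bc (A := A) (B := B) (C := C) h1 o (Or.inr ⟨h2, by simpa using ih⟩)
    cases hd : d.2 <;> simpa [hd] using this

lemma star_right_of_walk3 {s : Fin 3} {d o : Dart Q} (h : Walk3 A B C s d o) :
    (s = 0 → Walk A (starRel B C) false d o) ∧
    (s = 2 → ∀ d0 : Dart Q, (∀ e, Walk B C true d e → Walk B C (!d0.2) d0 e) →
        Walk A (starRel B C) true d0 o) ∧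
    (s = 1 → ∀ d0 : Dart Q, (∀ e, Walk B C false d e → Walk B C (!d0.2) d0 e) →
        Walk A (starRel B C) true d0 o) := by
  induction h with
  | @exit0 d e h1 h2 => exact ⟨fun _ => Walk.exitA h1 h2, by simp, by simp⟩
  | @go01 d e o h1 h2 _ ih =>
    refine ⟨fun _ => Walk.toB h1 h2 (ih.2.2 rfl e (fun e' he' => ?_)), by simp, by simp⟩
    simpa [h2] using he'
  | @go10 d e o h1 h2 _ ih =>
    refine ⟨by simp, by simp, fun _ d0 hd0 => Walk.toA (hd0 _ (Walk.exitA h1 h2)) h2 (ih.1 rfl)⟩
  | @go12 d e o h1 h2 _ ih =>
    refine ⟨by simp, by simp, fun _ d0 hd0 => ih.2.1 rfl d0 (fun e' he' => hd0 _ (Walk.toB h1 h2 he'))⟩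
  | @go21 d e o h1 h2 _ ih =>
    refine ⟨by simp, fun _ d0 hd0 => ih.2.2 rfl d0 (fun e' he' => hd0 _ (Walk.toA h1 h2 he')), by simp⟩
  | @exit2 d e h1 h2 =>
    exact ⟨by simp, fun _ d0 hd0 => Walk.exitB (hd0 _ (Walk.exitB h1 h2)) h2, by simp⟩

theorem starRel_assoc (A B C : Dart Q → Dart Q → Prop) :
    starRel (starRel A B) C = starRel A (starRel B C) := by
  funext d o
  apply propext
  constructor
  · intro h
    have h3 := walk3_of_star_left h
    cases hd : d.2 with
    | true =>
      have h4 : Walk3 A B C 0 d o := by simpa [hd] using h3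
      have := (star_right_of_walk3 h4).1 rfl
      simpa [starRel, hd] using this
    | false =>
      have h4 : Walk3 A B C 2 d o := by simpa [hd] using h3
      have := (star_right_of_walk3 h4).2.1 rfl d (by intro e he; simpa [hd] using he)
      simpa [starRel, hd] using this
  · intro h
    have h3 := walk3_of_star_right h
    cases hd : d.2 with
    | true =>
      have h4 : Walk3 A B C 0 d o := by simpa [hd] using h3
      have := (star_left_of_walk3 h4).2.1 rfl d (by intro e he; simpa [hd] using he)
      simpa [starRel, hd] using this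
    | false =>
      have h4 : Walk3 A B C 2 d o := by simpa [hd] using h3
      have := (star_left_of_walk3 h4).1 rfl
      simpa [starRel, hd] using this

end assoc

section unit
variable {A : Dart Q → Dart Q → Prop}

lemma of_walk_one_left {i : Bool} {d o : Dart Q} (h : Walk (fun a b : Dart Q => a = b) A i d o) :
    (i = true → A d o) ∧ (i = false → (d.2 = false → o = d) ∧ (d.2 = true → A d o)) := by
  induction h with
  | @exitA d e h1 h2 =>
    subst h1
    exact ⟨by simp, fun _ => ⟨fun _ => rfl, fun h => by simp [h2] at h⟩⟩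
  | @exitB d e h1 h2 => exact ⟨fun _ => h1, by simp⟩
  | @toB d e o h1 h2 _ ih =>
    subst h1
    exact ⟨by simp, fun _ => ⟨fun h => by simp [h2] at h, fun _ => ih.1 rfl⟩⟩
  | @toA d e o h1 h2 _ ih =>
    have := (ih.2 rfl).1 h2
    subst this
    exact ⟨fun _ => h1, by simp⟩

lemma walk_one_left_of {d o : Dart Q} (h : A d o) :
    Walk (fun a b : Dart Q => a = b) A true d o := by
  cases ho : o.2 with
  | true => exact Walk.exitB h ho
  | false => exact Walk.toA h ho (Walk.exitA rfl ho)

theorem starRel_one_left (A : Dart Q → Dart Q → Prop) :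
    starRel (fun a b : Dart Q => a = b) A = A := by
  funext d o
  apply propext
  constructor
  · intro h
    cases hd : d.2 with
    | true =>
      have h' : Walk (fun a b : Dart Q => a = b) A false d o := by simpa [starRel, hd] using h
      exact ((of_walk_one_left h').2 rfl).2 hd
    | false =>
      have h' : Walk (fun a b : Dart Q => a = b) A true d o := by simpa [starRel, hd] using h
      exact (of_walk_one_left h').1 rfl
  · intro h
    cases hd : d.2 with
    | true =>
      have : Walk (fun a b : Dart Q => a = b) A false d o := Walk.toB rfl hd (walk_one_left_of h)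
      simpa [starRel, hd] using this
    | false =>
      have := walk_one_left_of h
      simpa [starRel, hd] using this

lemma of_walk_one_right {i : Bool} {d o : Dart Q} (h : Walk A (fun a b : Dart Q => a = b) i d o) :
    (i = false → A d o) ∧ (i = true → (d.2 = true → o = d) ∧ (d.2 = false → A d o)) := by
  induction h with
  | @exitA d e h1 h2 => exact ⟨fun _ => h1, by simp⟩
  | @exitB d e h1 h2 =>
    subst h1
    exact ⟨by simp, fun _ => ⟨fun _ => rfl, fun h => by simp [h2] at h⟩⟩
  | @toB d e o h1 h2 _ ih =>
    have := (ih.2 rfl).1 h2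
    subst this
    exact ⟨fun _ => h1, by simp⟩
  | @toA d e o h1 h2 _ ih =>
    subst h1
    exact ⟨by simp, fun _ => ⟨fun h => by simp [h2] at h, fun _ => ih.1 rfl⟩⟩

lemma walk_one_right_of {d o : Dart Q} (h : A d o) :
    Walk A (fun a b : Dart Q => a = b) false d o := by
  cases ho : o.2 with
  | true => exact Walk.toB h ho (Walk.exitB rfl ho)
  | false => exact Walk.exitA h ho

theorem starRel_one_right (A : Dart Q → Dart Q → Prop) :
    starRel A (fun a b : Dart Q => a = b) = A := by
  funext d o
  apply propext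
  constructor
  · intro h
    cases hd : d.2 with
    | true =>
      have h' : Walk A (fun a b : Dart Q => a = b) false d o := by simpa [starRel, hd] using h
      exact (of_walk_one_right h').1 rfl
    | false =>
      have h' : Walk A (fun a b : Dart Q => a = b) true d o := by simpa [starRel, hd] using h
      exact ((of_walk_one_right h').2 rfl).2 hd
  · intro h
    cases hd : d.2 with
    | true =>
      have := walk_one_right_of h
      simpa [starRel, hd] using this
    | false =>
      have : Walk A (fun a b : Dart Q => a = b) true d o := Walk.toA rfl hd (walk_one_right_of h)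
      simpa [starRel, hd] using this

end unit

/-- Monotonicity of walks. -/
lemma Walk.mono {A A' B B' : Dart Q → Dart Q → Prop}
    (hA : ∀ d e, A d e → A' d e) (hB : ∀ d e, B d e → B' d e) {i : Bool} {d o : Dart Q}
    (h : Walk A B i d o) : Walk A' B' i d o := by
  induction h with
  | exitA h1 h2 => exact Walk.exitA (hA _ _ h1) h2
  | exitB h1 h2 => exact Walk.exitB (hB _ _ h1) h2
  | toB h1 h2 _ ih => exact Walk.toB (hA _ _ h1) h2 ih
  | toA h1 h2 _ ih => exact Walk.toA (hB _ _ h1) h2 ih

/-- A behaviour: a relation on darts. -/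
@[ext] structure Beh (Q : Type u) where
  /-- the relation -/
  rel : Dart Q → Dart Q → Prop

namespace Beh

instance : One (Beh Q) := ⟨⟨fun a b => a = b⟩⟩
instance : Mul (Beh Q) := ⟨fun A B => ⟨starRel A.rel B.rel⟩⟩

@[simp] lemma one_rel (d e : Dart Q) : (1 : Beh Q).rel d e ↔ d = e := Iff.rfl
lemma mul_rel (A B : Beh Q) (d e : Dart Q) : (A * B).rel d e ↔ starRel A.rel B.rel d e := Iff.rfl

instance : Monoid (Beh Q) where
  mul_assoc A B C := by
    apply Beh.ext
    exact starRel_assoc A.rel B.rel C.rel
  one_mul A := by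
    apply Beh.ext
    exact starRel_one_left A.rel
  mul_one A := by
    apply Beh.ext
    exact starRel_one_right A.rel

instance : LE (Beh Q) := ⟨fun A B => ∀ d e, A.rel d e → B.rel d e⟩

lemma le_def {A B : Beh Q} : A ≤ B ↔ ∀ d e, A.rel d e → B.rel d e := Iff.rfl

lemma mul_le_mul' {A A' B B' : Beh Q} (h1 : A ≤ A') (h2 : B ≤ B') : A * B ≤ A' * B' :=
  fun _ _ h => Walk.mono h1 h2 h

instance [Finite Q] : Finite (Beh Q) :=
  Finite.of_injective (fun A : Beh Q => A.rel) (fun A B h => Beh.ext h)

/-! Characterization of the star product by crossing paths. -/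

/-- Right-to-left-turn through the cut -/
lemma mul_rel_of_through_left {A B : Beh Q} {d e : Dart Q} (h : A.rel d e) (he : e.2 = false)
    (hd : d.2 = true) : (A * B).rel d e := by
  change Walk A.rel B.rel (!d.2) d e
  simpa [hd] using Walk.exitA h he

end Beh

/-- Idempotent power in a finite monoid. -/
theorem exists_idem_pow {M : Type*} [Monoid M] [Finite M] (x : M) :
    ∃ n : ℕ, 0 < n ∧ x ^ n * x ^ n = x ^ n := by
  classical
  -- pigeonhole
  obtain ⟨a, b, hab, h⟩ := Finite.exists_ne_map_eq_of_infinite (fun n : ℕ => x ^ n)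
  wlog hlt : a < b generalizing a b
  · exact this b a hab.symm h.symm (lt_of_le_of_ne (not_lt.mp hlt) hab.symm)
  set p := b - a with hp
  have hp0 : 0 < p := Nat.sub_pos_of_lt hlt
  -- x^(a + k p) = x^a
  have hper : ∀ k m : ℕ, a ≤ m → x ^ (m + k * p) = x ^ m := by
    intro k m hm
    induction k with
    | zero => simp
    | succ k ih =>
      have h1 : x ^ (a + p) = x ^ a := by
        have : a + p = b := by omega
        rw [this]; exact h.symm
      have h2 : x ^ (m + p) = x ^ m := by
        obtain ⟨c, rfl⟩ := Nat.exists_eq_add_of_le hm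
        calc x ^ (a + c + p) = x ^ (a + p) * x ^ c := by rw [← pow_add]; congr 1; omega
          _ = x ^ a * x ^ c := by rw [h1]
          _ = x ^ (a + c) := by rw [pow_add]
      calc x ^ (m + (k + 1) * p) = x ^ ((m + k * p) + p) := by congr 1; ring
        _ = x ^ (m + k * p) * x ^ p := by rw [pow_add]
        _ = x ^ m * x ^ p := by rw [ih]
        _ = x ^ (m + p) := by rw [pow_add]
        _ = x ^ m := h2
  refine ⟨(a + 1) * p, by positivity, ?_⟩
  have h3 : a ≤ (a + 1) * p := by nlinarith
  rw [← pow_add]
  have := hper (a + 1) ((a + 1) * p) h3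
  simpa using this

/-- The idempotent power of an element of a finite monoid. -/
noncomputable def idemPow {M : Type*} [Monoid M] [Finite M] (x : M) : M :=
  x ^ (Classical.choose (exists_idem_pow x))

lemma idemPow_idem {M : Type*} [Monoid M] [Finite M] (x : M) : idemPow x * idemPow x = idemPow x :=
  (Classical.choose_spec (exists_idem_pow x)).2

end Crest.Agent.Lib.TwoWayBeh
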