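import Crest.Prelude.Def_TwoWay
import Crest.Agent.Lib.TwoWayBeh.Star

/-!
# From machines to the star monoid

For a rule system (state, cell) ↦ set of (state, move) the behaviour of a list of cells is the star
product of the behaviours of the cells (`tapeRel_iff`). For a `TwoWayNFA` with state type `σ` we use
the state type `Option σ`, `none` meaning "accepted, now walking to the left end", so acceptance is
one entry of the behaviour of the whole tape (`accepts_iff`), on exactly `2 * (card σ + 1)` darts.
-/

set_option autoImplicit false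

namespace Crest.Agent.Lib.TwoWayBeh

open Crest.TwoWay

universe u v

variable {α : Type v} {Q : Type u}

/-- A rule system. -/
abbrev Rules (α : Type v) (Q : Type u) := Q → Cell α → Set (Q × HeadMove)

/-- A move of the head as a boolean direction. -/
def moveOf (b : Bool) : HeadMove := if b then HeadMove.moveRight else HeadMove.moveLeft

@[simp] lemma moveOf_true : moveOf true = HeadMove.moveRight := rfl
@[simp] lemma moveOf_false : moveOf false = HeadMove.moveLeft := rfl

/-- A stay move. -/
def stayStep (r : Rules α Q) (c : Cell α) (a b : Q) : Prop := (b, HeadMove.stay) ∈ r a c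

/-- Behaviour of one cell. -/
def cellBeh (r : Rules α Q) (c : Cell α) : Beh Q :=
  ⟨fun d e => ∃ p, Relation.ReflTransGen (stayStep r c) d.1 p ∧ (e.1, moveOf e.2) ∈ r p c⟩

/-- Behaviour of a list of cells, as a star product. -/
def tapeBeh (r : Rules α Q) (C : List (Cell α)) : Beh Q := (C.map (cellBeh r)).prod

/-- A step on a list of cells, inside the list. -/
def TStep (r : Rules α Q) (C : List (Cell α)) (x y : Q × ℕ) : Prop :=
  ∃ c, C[x.2]? = some c ∧ ∃ m, (y.1, m) ∈ r x.1 c ∧
    ((m = HeadMove.stay ∧ y.2 = x.2) ∨ (m = HeadMove.moveRight ∧ y.2 = x.2 + 1 ∧ y.2 < C.length) ∨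
      (m = HeadMove.moveLeft ∧ y.2 + 1 = x.2))

/-- A step leaving the list. -/
def TExit (r : Rules α Q) (C : List (Cell α)) (x : Q × ℕ) (e : Dart Q) : Prop :=
  ∃ c, C[x.2]? = some c ∧ (e.1, moveOf e.2) ∈ r x.1 c ∧
    (if e.2 = true then x.2 + 1 = C.length else x.2 = 0)

/-- Entry position of a dart. -/
def entryPos (C : List (Cell α)) (d : Dart Q) : ℕ := if d.2 = true then 0 else C.length - 1

/-- The semantic behaviour of a list of cells. -/
def TRel (r : Rules α Q) (C : List (Cell α)) (d e : Dart Q) : Prop :=
  ∃ x, Relation.ReflTransGen (TStep r C) (d.1, entryPos C d) x ∧ TExit r C x e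

section lift
variable {r : Rules α Q} {c : Cell α} {D : List (Cell α)}

lemma TStep.lift {x y : Q × ℕ} (h : TStep r D x y) :
    TStep r (c :: D) (x.1, x.2 + 1) (y.1, y.2 + 1) := by
  obtain ⟨c', h1, m, h2, h3⟩ := h
  refine ⟨c', by simpa using h1, m, h2, ?_⟩
  rcases h3 with ⟨h, h'⟩ | ⟨h, h', h''⟩ | ⟨h, h'⟩
  · exact Or.inl ⟨h, by simp [h']⟩
  · exact Or.inr (Or.inl ⟨h, by simp [h'], by simp only [List.length_cons]; omega⟩)
  · exact Or.inr (Or.inr ⟨h, by simp only; omega⟩)

lemma rtg_lift {x y : Q × ℕ} (h : Relation.ReflTransGen (TStep r D) x y) :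
    Relation.ReflTransGen (TStep r (c :: D)) (x.1, x.2 + 1) (y.1, y.2 + 1) := by
  induction h with
  | refl => exact Relation.ReflTransGen.refl
  | tail _ h2 ih => exact ih.tail h2.lift

lemma rtg_stay {p q : Q} (h : Relation.ReflTransGen (stayStep r c) p q) :
    Relation.ReflTransGen (TStep r (c :: D)) (p, 0) (q, 0) := by
  induction h with
  | refl => exact Relation.ReflTransGen.refl
  | tail _ h2 ih =>
    refine ih.tail ⟨c, by simp, HeadMove.stay, h2, Or.inl ⟨rfl, rfl⟩⟩

/-- star ⟹ path -/
lemma path_of_walk (hD : D ≠ []) {i : Bool} {d o : Dart Q}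
    (h : Walk (cellBeh r c).rel (TRel r D) i d o) :
    (i = false → ∃ y, Relation.ReflTransGen (TStep r (c :: D)) (d.1, 0) y ∧ TExit r (c :: D) y o) ∧
    (i = true → ∃ y, Relation.ReflTransGen (TStep r (c :: D)) (d.1, entryPos D d + 1) y ∧
      TExit r (c :: D) y o) := by
  have hlen : 0 < D.length := List.length_pos_iff.mpr hD
  induction h with
  | @exitA d e h1 h2 =>
    refine ⟨fun _ => ?_, by simp⟩
    obtain ⟨p, hp1, hp2⟩ := h1
    refine ⟨(p, 0), rtg_stay hp1, c, by simp, hp2, ?_⟩
    simp [h2]
  | @exitB d e h1 h2 =>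
    refine ⟨by simp, fun _ => ?_⟩
    obtain ⟨x, hx1, c', hc1, hc2, hc3⟩ := h1
    refine ⟨(x.1, x.2 + 1), rtg_lift hx1, c', by simpa using hc1, hc2, ?_⟩
    simp only [h2, if_true] at hc3 ⊢
    simp only [List.length_cons]
    omega
  | @toB d e o h1 h2 _ ih =>
    refine ⟨fun _ => ?_, by simp⟩
    obtain ⟨p, hp1, hp2⟩ := h1
    obtain ⟨y, hy1, hy2⟩ := ih.2 rfl
    refine ⟨y, (rtg_stay hp1).trans (Relation.ReflTransGen.head ?_ hy1), hy2⟩
    refine ⟨c, by simp, HeadMove.moveRight, ?_, Or.inr (Or.inl ⟨rfl, ?_, ?_⟩)⟩
    · have : moveOf e.2 = HeadMove.moveRight := by simp [h2]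
      simpa [this] using hp2
    · simp [entryPos, h2]
    · simp [entryPos, h2, hlen]
  | @toA d e o h1 h2 _ ih =>
    refine ⟨by simp, fun _ => ?_⟩
    obtain ⟨x, hx1, c', hc1, hc2, hc3⟩ := h1
    obtain ⟨y, hy1, hy2⟩ := ih.1 rfl
    refine ⟨y, (rtg_lift hx1).trans (Relation.ReflTransGen.head ?_ hy1), hy2⟩
    refine ⟨c', by simpa using hc1, HeadMove.moveLeft, ?_, Or.inr (Or.inr ⟨rfl, ?_⟩)⟩
    · have : moveOf e.2 = HeadMove.moveLeft := by simp [h2]
      simpa [this] using hc2
    · simp only [h2] at hc3
      simp at hc3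
      simp [hc3]

/-- path ⟹ star -/
lemma walk_of_path (hD : D ≠ []) {o : Dart Q} {x y : Q × ℕ}
    (h : Relation.ReflTransGen (TStep r (c :: D)) x y) (hy : TExit r (c :: D) y o) :
    (x.2 = 0 → ∀ d : Dart Q, Relation.ReflTransGen (stayStep r c) d.1 x.1 →
      Walk (cellBeh r c).rel (TRel r D) false d o) ∧
    (∀ j, x.2 = j + 1 → ∀ d : Dart Q, Relation.ReflTransGen (TStep r D) (d.1, entryPos D d) (x.1, j) →
      Walk (cellBeh r c).rel (TRel r D) true d o) := by
  have hlen : 0 < D.length := List.length_pos_iff.mpr hD
  induction h using Relation.ReflTransGen.head_induction_on with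
  | refl =>
    obtain ⟨c', h1, h2, h3⟩ := hy
    constructor
    · intro h0 d hd
      rw [h0] at h1
      simp only [List.getElem?_cons_zero, Option.some.injEq] at h1
      subst h1
      have ho : o.2 = false := by
        by_contra hne
        have : o.2 = true := by simpa using hne
        simp only [this, if_true, h0, List.length_cons] at h3
        omega
      exact Walk.exitA ⟨y.1, hd, h2⟩ ho
    · intro j hj d hd
      have h1' : D[j]? = some c' := by simpa [hj] using h1
      have ho : o.2 = true := by
        by_contra hne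
        have : o.2 = false := by simpa using hne
        simp [this, hj] at h3
      refine Walk.exitB ⟨(y.1, j), hd, c', h1', h2, ?_⟩ ho
      simp only [ho, if_true] at h3 ⊢
      simp only [List.length_cons] at h3
      omega
  | @head u v hs _ ih =>
    obtain ⟨c', h1, m, h2, h3⟩ := hs
    constructor
    · intro h0 d hd
      rw [h0] at h1
      simp only [List.getElem?_cons_zero, Option.some.injEq] at h1
      subst h1
      rcases h3 with ⟨hm, hv⟩ | ⟨hm, hv, hv'⟩ | ⟨hm, hv⟩
      · subst hm
        exact ih.1 (by omega) d (hd.tail h2)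
      · subst hm
        have hv0 : v.2 = 0 + 1 := by omega
        have := ih.2 0 hv0 (v.1, true) (by simp only [entryPos, if_true]; exact Relation.ReflTransGen.refl)
        exact Walk.toB ⟨u.1, hd, by simpa using h2⟩ rfl this
      · omega
    · intro j hj d hd
      have h1' : D[j]? = some c' := by simpa [hj] using h1
      rcases h3 with ⟨hm, hv⟩ | ⟨hm, hv, hv'⟩ | ⟨hm, hv⟩
      · subst hm
        refine ih.2 j (by omega) d (hd.tail ?_)
        exact ⟨c', h1', HeadMove.stay, h2, Or.inl ⟨rfl, rfl⟩⟩
      · subst hm
        refine ih.2 (j + 1) (by omega) d (hd.tail ?_)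
        simp only [List.length_cons] at hv'
        exact ⟨c', h1', HeadMove.moveRight, h2, Or.inr (Or.inl ⟨rfl, rfl, by simp only; omega⟩)⟩
      · subst hm
        cases j with
        | zero =>
          have hv0 : v.2 = 0 := by omega
          have hrel : TRel r D d (v.1, false) := by
            refine ⟨(u.1, 0), hd, c', h1', by simpa using h2, ?_⟩
            simp
          exact Walk.toA hrel rfl (ih.1 hv0 (v.1, false) Relation.ReflTransGen.refl)
        | succ j =>
          refine ih.2 j (by omega) d (hd.tail ?_)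
          exact ⟨c', h1', HeadMove.moveLeft, h2, Or.inr (Or.inr ⟨rfl, rfl⟩)⟩

lemma TRel_cons_cons (hD : D ≠ []) (d o : Dart Q) :
    TRel r (c :: D) d o ↔ starRel (cellBeh r c).rel (TRel r D) d o := by
  have hlen : 0 < D.length := List.length_pos_iff.mpr hD
  constructor
  · rintro ⟨y, hy1, hy2⟩
    have := walk_of_path hD hy1 hy2
    cases hd : d.2 with
    | true =>
      have h0 : entryPos (c :: D) d = 0 := by simp [entryPos, hd]
      rw [h0] at this
      have := this.1 rfl d Relation.ReflTransGen.refl
      simpa [starRel, hd] using this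
    | false =>
      have h0 : entryPos (c :: D) d = (D.length - 1) + 1 := by
        simp [entryPos, hd]; omega
      rw [h0] at this
      have := this.2 (D.length - 1) rfl d (by
        simp only [entryPos, hd]; simpa using Relation.ReflTransGen.refl)
      simpa [starRel, hd] using this
  · intro h
    have := path_of_walk hD h
    cases hd : d.2 with
    | true =>
      have h0 : entryPos (c :: D) d = 0 := by simp [entryPos, hd]
      obtain ⟨y, h1, h2⟩ := this.1 (by simp [hd])
      exact ⟨y, by rw [h0]; exact h1, h2⟩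
    | false =>
      have h0 : entryPos (c :: D) d = entryPos D d + 1 := by
        simp [entryPos, hd]; omega
      obtain ⟨y, h1, h2⟩ := this.2 (by simp [hd])
      exact ⟨y, by rw [h0]; exact h1, h2⟩

lemma TRel_singleton (d o : Dart Q) : TRel r [c] d o ↔ (cellBeh r c).rel d o := by
  constructor
  · rintro ⟨x, h1, c', h2, h3, -⟩
    -- all configurations stay at position 0
    have key : ∀ y : Q × ℕ, Relation.ReflTransGen (TStep r [c]) (d.1, 0) y →
        y.2 = 0 ∧ Relation.ReflTransGen (stayStep r c) d.1 y.1 := by
      intro y hy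
      induction hy with
      | refl => exact ⟨rfl, Relation.ReflTransGen.refl⟩
      | @tail b y' _ hs ih =>
        obtain ⟨c'', hc1, m, hm, hk⟩ := hs
        rw [ih.1] at hc1
        simp only [List.getElem?_cons_zero, Option.some.injEq] at hc1
        subst hc1
        rcases hk with ⟨hm', hv⟩ | ⟨_, hv, hv'⟩ | ⟨_, hv⟩
        · subst hm'
          exact ⟨by omega, ih.2.tail hm⟩
        · simp at hv'; omega
        · have := ih.1; omega
    have h0 : entryPos [c] d = 0 := by simp [entryPos]
    rw [h0] at h1
    obtain ⟨hx0, hx1⟩ := key x h1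
    rw [hx0] at h2
    simp only [List.getElem?_cons_zero, Option.some.injEq] at h2
    subst h2
    exact ⟨x.1, hx1, h3⟩
  · rintro ⟨p, h1, h2⟩
    have h0 : entryPos [c] d = 0 := by simp [entryPos]
    refine ⟨(p, 0), by rw [h0]; exact rtg_stay h1, c, by simp, h2, ?_⟩
    simp

end lift

/-- The product behaviour of a nonempty list of cells is its semantic behaviour. -/
theorem tapeBeh_rel_iff (r : Rules α Q) (C : List (Cell α)) (hC : C ≠ []) (d o : Dart Q) :
    (tapeBeh r C).rel d o ↔ TRel r C d o := by
  induction C generalizing d o with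
  | nil => exact absurd rfl hC
  | cons c D ih =>
    by_cases hD : D = []
    · subst hD
      simp only [tapeBeh, List.map_cons, List.map_nil, List.prod_cons, List.prod_nil, mul_one]
      exact (TRel_singleton d o).symm
    · rw [TRel_cons_cons hD]
      have h1 : tapeBeh r (c :: D) = cellBeh r c * tapeBeh r D := by
        simp [tapeBeh]
      rw [h1, Beh.mul_rel]
      have h2 : (tapeBeh r D).rel = TRel r D := by
        funext a b
        exact propext (ih hD a b)
      rw [h2]

/-- Legal moves at the endmarkers. -/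
def legal (c : Cell α) (m : HeadMove) : Prop :=
  ¬ (c = Cell.leftEnd ∧ m = HeadMove.moveLeft) ∧ ¬ (c = Cell.rightEnd ∧ m = HeadMove.moveRight)

variable {σ : Type u}

/-- The rules on `Option σ`. -/
def doneRules (M : TwoWayNFA α σ) : Rules α (Option σ) := fun q c =>
  match q with
  | none => {x | x = (none, HeadMove.moveLeft)}
  | some p =>
    {x | (∃ r m, x = (some r, m) ∧ (r, m) ∈ M.step p c ∧ legal c m) ∨
      (x = (none, HeadMove.moveLeft) ∧ p ∈ M.accept)}

/-- The tape of a word. -/
def cells (w : List α) : List (Cell α) :=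
  Cell.leftEnd :: (w.map Cell.letter ++ [Cell.rightEnd])

lemma cells_length (w : List α) : (cells w).length = w.length + 2 := by
  simp [cells]

lemma cells_getElem? (w : List α) {i : ℕ} {c : Cell α} (h : (cells w)[i]? = some c) :
    c = scan w i := by
  cases i with
  | zero =>
    simp only [cells, List.getElem?_cons_zero, Option.some.injEq] at h
    subst h
    simp [scan]
  | succ k =>
    simp only [cells, List.getElem?_cons_succ] at h
    by_cases hk : k < w.length
    · rw [List.getElem?_append_left (by simpa using hk)] at h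
      simp only [List.getElem?_map, List.getElem?_eq_getElem hk, Option.map_some,
        Option.some.injEq] at h
      subst h
      simp [scan, List.getElem?_eq_getElem hk]
    · rw [List.getElem?_append_right (by simpa using hk)] at h
      simp only [List.length_map] at h
      have hn : w[k]? = none := by
        simp only [List.getElem?_eq_none_iff]; omega
      simp only [scan, Nat.succ_ne_zero, if_false, Nat.add_sub_cancel, hn]
      by_cases hk2 : k - w.length = 0
      · rw [hk2] at h
        simpa using h.symm
      · exfalso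
        have : [Cell.rightEnd (α := α)][k - w.length]? = none := by
          simp only [List.getElem?_eq_none_iff, List.length_singleton]; omega
        rw [this] at h
        simp at h

lemma cells_getElem?_scan (w : List α) {i : ℕ} (hi : i ≤ w.length + 1) :
    (cells w)[i]? = some (scan w i) := by
  obtain ⟨c, hc⟩ : ∃ c, (cells w)[i]? = some c := by
    refine ⟨(cells w)[i]'(by rw [cells_length]; omega), ?_⟩
    exact List.getElem?_eq_getElem _
  rw [hc, cells_getElem? w hc]

section machine
variable (M : TwoWayNFA α σ) (w : List α)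

lemma scan_leftEnd {i : ℕ} (h : scan w i = Cell.leftEnd) : i = 0 := by
  by_contra hi
  simp only [scan, hi, if_false] at h
  cases hw : w[i - 1]? <;> simp [hw] at h

lemma scan_rightEnd {i : ℕ} (h : scan w i = Cell.rightEnd) : w.length + 1 ≤ i := by
  by_contra hi
  have hi0 : i ≠ 0 := by
    rintro rfl
    simp [scan] at h
  simp only [scan, hi0, if_false] at h
  have : w[i - 1]? = some (w[i - 1]'(by omega)) := List.getElem?_eq_getElem _
  simp [this] at h

lemma step_tstep {x y : σ × ℕ} (h : M.Step w x y) (hx : x.2 ≤ w.length + 1) :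
    y.2 ≤ w.length + 1 ∧
      TStep (doneRules M) (cells w) (some x.1, x.2) (some y.1, y.2) := by
  obtain ⟨m, h1, h2⟩ := h
  have hleg : legal (scan w x.2) m := by
    constructor
    · rintro ⟨h3, rfl⟩
      have := scan_leftEnd w h3
      simp [movePos, this] at h2
    · rintro ⟨h3, rfl⟩
      have := scan_rightEnd w h3
      simp [movePos, this] at h2
  have hmem : (some y.1, m) ∈ doneRules M (some x.1) (scan w x.2) :=
    Or.inl ⟨y.1, m, rfl, h1, hleg⟩
  cases m with
  | moveLeft =>
    simp only [movePos] at h2
    split_ifs at h2 with h0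
    simp only [Option.some.injEq] at h2
    have hy : y.2 + 1 = x.2 := by omega
    exact ⟨by omega, scan w x.2, cells_getElem?_scan w hx, HeadMove.moveLeft, hmem,
      Or.inr (Or.inr ⟨rfl, hy⟩)⟩
  | stay =>
    simp only [movePos, Option.some.injEq] at h2
    exact ⟨by omega, scan w x.2, cells_getElem?_scan w hx, HeadMove.stay, hmem,
      Or.inl ⟨rfl, h2.symm⟩⟩
  | moveRight =>
    simp only [movePos] at h2
    split_ifs at h2 with h0
    simp only [Option.some.injEq] at h2
    refine ⟨by omega, scan w x.2, cells_getElem?_scan w hx, HeadMove.moveRight, hmem,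
      Or.inr (Or.inl ⟨rfl, h2.symm, ?_⟩)⟩
    rw [cells_length]; simp only; omega

lemma tstep_step {p q : σ} {i j : ℕ}
    (h : TStep (doneRules M) (cells w) (some p, i) (some q, j)) :
    M.Step w (p, i) (q, j) := by
  obtain ⟨c, h1, m, h2, h3⟩ := h
  have hc := cells_getElem? w h1
  subst hc
  have hi : i < (cells w).length := by
    by_contra hi
    rw [List.getElem?_eq_none (by omega)] at h1
    simp at h1
  rw [cells_length] at hi
  simp only [doneRules, Set.mem_ofPred_eq] at h2
  rcases h2 with ⟨r, m', h4, h5, h6⟩ | ⟨h4, _⟩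
  · simp only [Prod.mk.injEq, Option.some.injEq] at h4
    obtain ⟨rfl, rfl⟩ := h4
    refine ⟨m, h5, ?_⟩
    rcases h3 with ⟨rfl, h7⟩ | ⟨rfl, h7, h8⟩ | ⟨rfl, h7⟩
    · simp only at h7
      simp [movePos, h7]
    · simp only at h7 h8
      rw [cells_length] at h8
      have : ¬ (w.length + 1 ≤ i) := by omega
      simp [movePos, this, h7]
    · simp only at h7
      have h0 : i ≠ 0 := by omega
      simp only [movePos, h0, if_false, Option.some.injEq]
      omega
  · simp at h4

lemma reach_tstep {x y : σ × ℕ} (h : Relation.ReflTransGen (M.Step w) x y)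
    (hx : x.2 ≤ w.length + 1) :
    y.2 ≤ w.length + 1 ∧
      Relation.ReflTransGen (TStep (doneRules M) (cells w)) (some x.1, x.2) (some y.1, y.2) := by
  induction h with
  | refl => exact ⟨hx, Relation.ReflTransGen.refl⟩
  | tail _ h2 ih =>
    obtain ⟨h3, h4⟩ := step_tstep M w h2 ih.1
    exact ⟨h3, ih.2.tail h4⟩

/-- `none` walks left to the left end. -/
lemma none_reach (j : ℕ) (hj : j ≤ w.length + 1) :
    Relation.ReflTransGen (TStep (doneRules M) (cells w)) (none, j) (none, 0) := by
  induction j with
  | zero => exact Relation.ReflTransGen.refl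
  | succ j ih =>
    refine Relation.ReflTransGen.head ?_ (ih (by omega))
    exact ⟨scan w (j + 1), cells_getElem?_scan w hj, HeadMove.moveLeft, rfl,
      Or.inr (Or.inr ⟨rfl, rfl⟩)⟩

lemma accept_of_path {x y : Option σ × ℕ}
    (h : Relation.ReflTransGen (TStep (doneRules M) (cells w)) x y)
    (hy : TExit (doneRules M) (cells w) y (none, false)) :
    ∀ p, x.1 = some p → ∃ q j, Relation.ReflTransGen (M.Step w) (p, x.2) (q, j) ∧ q ∈ M.accept := by
  induction h using Relation.ReflTransGen.head_induction_on with
  | refl =>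
    rintro p hp
    obtain ⟨c, _, h2, _⟩ := hy
    rw [hp] at h2
    simp only [doneRules, Set.mem_ofPred_eq] at h2
    rcases h2 with ⟨r, m, h4, _, _⟩ | ⟨_, h5⟩
    · simp at h4
    · exact ⟨p, y.2, Relation.ReflTransGen.refl, h5⟩
  | @head u v hs _ ih =>
    rintro p hp
    cases hv : v.1 with
    | none =>
      obtain ⟨c, _, m, h2, _⟩ := hs
      rw [hp, hv] at h2
      simp only [doneRules, Set.mem_ofPred_eq] at h2
      rcases h2 with ⟨r, m', h4, _, _⟩ | ⟨_, h5⟩
      · simp at h4
      · exact ⟨p, u.2, Relation.ReflTransGen.refl, h5⟩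
    | some p' =>
      obtain ⟨q, j, h5, h6⟩ := ih p' hv
      refine ⟨q, j, Relation.ReflTransGen.head ?_ h5, h6⟩
      apply tstep_step
      have hu : u = (some p, u.2) := by rw [← hp]
      have hv' : v = (some p', v.2) := by rw [← hv]
      rw [← hu, ← hv']
      exact hs

/-- Acceptance is one entry of the behaviour of the tape. -/
theorem accepts_iff :
    M.Accepts w ↔ (tapeBeh (doneRules M) (cells w)).rel (some M.start, true) (none, false) := by
  rw [tapeBeh_rel_iff _ _ (by simp [cells])]
  constructor
  · rintro ⟨c, h1, h2⟩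
    obtain ⟨h3, h4⟩ := reach_tstep M w h1 (by simp)
    have hentry : entryPos (cells w) ((some M.start, true) : Dart (Option σ)) = 0 := by
      simp [entryPos]
    rw [TRel]
    simp only [hentry]
    cases hc : c.2 with
    | zero =>
      refine ⟨(some c.1, 0), ?_, scan w 0, cells_getElem?_scan w (by simp), ?_, by simp⟩
      · rw [hc] at h4
        exact h4
      · exact Or.inr ⟨rfl, h2⟩
    | succ j =>
      rw [hc] at h3 h4
      refine ⟨(none, 0), h4.trans (Relation.ReflTransGen.head ?_ (none_reach M w j (by omega))),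
        scan w 0, cells_getElem?_scan w (by simp), rfl, by simp⟩
      exact ⟨scan w (j + 1), cells_getElem?_scan w h3, HeadMove.moveLeft, Or.inr ⟨rfl, h2⟩,
        Or.inr (Or.inr ⟨rfl, rfl⟩)⟩
  · rintro ⟨y, h1, h2⟩
    have hentry : entryPos (cells w) ((some M.start, true) : Dart (Option σ)) = 0 := by
      simp [entryPos]
    rw [hentry] at h1
    obtain ⟨q, j, h3, h4⟩ := accept_of_path M w h1 h2 M.start rfl
    exact ⟨(q, j), h3, h4⟩

end machine

end Crest.Agent.Lib.TwoWayBeh
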