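import Crest.Agent.Lib.TwoWayBeh.Euler
import Crest.Agent.Lib.TwoWayBeh.Bridge
import Crest.Agent.Lib.TwoWayBeh.Upper

/-!
# The Euler tour of a two-way deterministic machine

For a deterministic machine `D` with state type `σ`, each letter gets a permutation of the darts of
`Option σ × Bool` (so `4 (card σ + 1)` darts), and the star product of these permutations decides
acceptance (`accepts_iff_tour`). So equal behaviours of `u`, `v` give equal relations
(`tour_separates`) when `D` recognizes a liveness language.
-/

set_option autoImplicit false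

namespace Crest.Agent.Lib.TwoWayBeh

open Crest.TwoWay

universe u v

variable {α : Type v} {σ : Type u}

open Classical in
/-- The machine without rules at accepting states. -/
noncomputable def trim (D : TwoWayNFA α σ) : TwoWayNFA α σ where
  start := D.start
  accept := D.accept
  step p c := if p ∈ D.accept then ∅ else D.step p c

lemma trim_step_subset (D : TwoWayNFA α σ) (p : σ) (c : Cell α) : (trim D).step p c ⊆ D.step p c := by
  classical
  intro x hx
  simp only [trim] at hx
  split_ifs at hx
  · simp at hx
  · exact hx

lemma trim_accepts_iff (D : TwoWayNFA α σ) (w : List α) : (trim D).Accepts w ↔ D.Accepts w := by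
  classical
  constructor
  · rintro ⟨c, h1, h2⟩
    refine ⟨c, ?_, h2⟩
    have h5 : ∀ y, Relation.ReflTransGen ((trim D).Step w) (D.start, 0) y →
        Relation.ReflTransGen (D.Step w) (D.start, 0) y := by
      intro y hy
      induction hy with
      | refl => exact Relation.ReflTransGen.refl
      | tail _ hs ih =>
        obtain ⟨m, h3, h4⟩ := hs
        exact ih.tail ⟨m, trim_step_subset D _ _ h3, h4⟩
    exact h5 c h1
  · rintro ⟨c, h1, h2⟩
    have key : ∀ x : σ × ℕ, Relation.ReflTransGen (D.Step w) x c →
        ∃ c', Relation.ReflTransGen ((trim D).Step w) x c' ∧ c'.1 ∈ D.accept := by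
      intro x hx
      induction hx using Relation.ReflTransGen.head_induction_on with
      | refl => exact ⟨c, Relation.ReflTransGen.refl, h2⟩
      | @head a b hs _ ih =>
        by_cases ha : a.1 ∈ D.accept
        · exact ⟨a, Relation.ReflTransGen.refl, ha⟩
        · obtain ⟨c', h3, h4⟩ := ih
          refine ⟨c', Relation.ReflTransGen.head ?_ h3, h4⟩
          obtain ⟨m, h5, h6⟩ := hs
          refine ⟨m, ?_, h6⟩
          simp only [trim, if_neg ha]
          exact h5
    obtain ⟨c', h3, h4⟩ := key _ h1
    exact ⟨c', h3, h4⟩

/-- The rules of `doneRules (trim D)` are deterministic. -/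
lemma doneRules_trim_subsingleton (D : TwoWayNFA α σ) (hD : D.IsDeterministic) (q : Option σ)
    (c : Cell α) : (doneRules (trim D) q c).Subsingleton := by
  classical
  intro x hx y hy
  cases q with
  | none =>
    have h1 : x = (none, HeadMove.moveLeft) := hx
    have h2 : y = (none, HeadMove.moveLeft) := hy
    rw [h1, h2]
  | some p =>
    by_cases hp : p ∈ D.accept
    · have hem : ∀ r m, (r, m) ∉ (trim D).step p c := by
        intro r m
        simp [trim, hp]
      have key : ∀ z, z ∈ doneRules (trim D) (some p) c → z = (none, HeadMove.moveLeft) := by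
        rintro z (⟨r, m, _, h2, _⟩ | ⟨h1, _⟩)
        · exact absurd h2 (hem _ _)
        · exact h1
      rw [key x hx, key y hy]
    · have key : ∀ z, z ∈ doneRules (trim D) (some p) c →
          ∃ r m, z = (some r, m) ∧ (r, m) ∈ D.step p c := by
        rintro z (⟨r, m, h1, h2, _⟩ | ⟨_, h2⟩)
        · exact ⟨r, m, h1, trim_step_subset D _ _ h2⟩
        · exact absurd h2 hp
      obtain ⟨r, m, rfl, h1⟩ := key x hx
      obtain ⟨r', m', rfl, h2⟩ := key y hy
      have := hD p c h1 h2
      simp only [Prod.mk.injEq] at this
      rw [this.1, this.2]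

lemma moveOf_ne_stay (b : Bool) : moveOf b ≠ HeadMove.stay := by
  cases b <;> simp [moveOf]

lemma moveOf_injective : Function.Injective moveOf := by
  intro a b h
  cases a <;> cases b <;> simp_all [moveOf]

/-- A deterministic rule system has functional cell behaviours. -/
lemma cellBeh_functional {Q : Type u} (r : Rules α Q) (hr : ∀ q c, (r q c).Subsingleton) (c : Cell α)
    {d d' e e' : Dart Q} (hd : d.1 = d'.1) (h : (cellBeh r c).rel d e) (h' : (cellBeh r c).rel d' e') :
    e = e' := by
  obtain ⟨p, h1, h2⟩ := h
  obtain ⟨p', h1', h2'⟩ := h'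
  rw [hd] at h1
  have hu : Relator.RightUnique (stayStep r c) := by
    intro a b b' hb hb'
    have := hr a c hb hb'
    simp only [Prod.mk.injEq] at this
    exact this.1
  have aux : ∀ {a b : Q} {e1 : Dart Q}, Relation.ReflTransGen (stayStep r c) a b →
      (e1.1, moveOf e1.2) ∈ r a c → a = b := by
    intro a b e1 hab ha
    rcases Relation.ReflTransGen.cases_head hab with h0 | ⟨x, h3, _⟩
    · exact h0
    · have := hr a c ha h3
      simp only [Prod.mk.injEq] at this
      exact absurd this.2 (moveOf_ne_stay _)
  have hp : p = p' := by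
    rcases Relation.ReflTransGen.total_of_right_unique hu h1 h1' with h3 | h3
    · exact aux h3 h2
    · exact (aux h3 h2').symm
  subst hp
  have := hr p c h2 h2'
  simp only [Prod.mk.injEq] at this
  exact Prod.ext this.1 (moveOf_injective this.2)

open Classical in
/-- The exit function of a cell of a machine. -/
noncomputable def exitF (D : TwoWayNFA α σ) (c : Cell α) (q : Option σ) : Option (Dart (Option σ)) :=
  if h : ∃ e, (cellBeh (doneRules (trim D)) c).rel (q, true) e then some h.choose else none

lemma exitF_eq_some_iff (D : TwoWayNFA α σ) (hD : D.IsDeterministic) (c : Cell α) (q : Option σ)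
    (e : Dart (Option σ)) :
    exitF D c q = some e ↔ (cellBeh (doneRules (trim D)) c).rel (q, true) e := by
  classical
  constructor
  · intro h
    simp only [exitF] at h
    split_ifs at h with h0
    simp only [Option.some.injEq] at h
    rw [← h]
    exact h0.choose_spec
  · intro h
    have h0 : ∃ e, (cellBeh (doneRules (trim D)) c).rel (q, true) e := ⟨e, h⟩
    simp only [exitF, dif_pos h0, Option.some.injEq]
    exact cellBeh_functional _ (doneRules_trim_subsingleton D hD) c rfl h0.choose_spec h

lemma fBeh_exitF (D : TwoWayNFA α σ) (hD : D.IsDeterministic) (c : Cell α) :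
    fBeh (exitF D c) = cellBeh (doneRules (trim D)) c := by
  apply Beh.ext
  funext d e
  apply propext
  change exitF D c d.1 = some e ↔ _
  rw [exitF_eq_some_iff D hD]
  exact Iff.rfl

section tour
variable [Finite σ]

/-- The exit functions of the tape of a word. -/
noncomputable def tapeCf (D : TwoWayNFA α σ) (w : List α) : List (Option σ → Option (Dart (Option σ))) :=
  (cells w).map (exitF D)

/-- start edge -/
def startEdge (D : TwoWayNFA α σ) : Dart (Option σ) := (some D.start, true)
/-- root edge -/
def rootEdge : Dart (Option σ) := (none, false)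

omit [Finite σ] in
lemma accepts_iff_fwd (D : TwoWayNFA α σ) (hD : D.IsDeterministic) (w : List α) :
    D.Accepts w ↔ (fwdTape (tapeCf D w)).prod.rel (startEdge D) rootEdge := by
  rw [← trim_accepts_iff, accepts_iff]
  have : fwdTape (tapeCf D w) = (cells w).map (cellBeh (doneRules (trim D))) := by
    simp only [fwdTape, tapeCf, List.map_map]
    apply List.map_congr_left
    intro c _
    exact fBeh_exitF D hD c
  rw [this]
  rfl

/-- The tour permutation of a letter of the alphabet. -/
noncomputable def letterPerm (D : TwoWayNFA α σ) (a : α) : Equiv.Perm (Dart (Option σ × Bool)) :=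
  tourPerm (exitF D (Cell.letter a))

/-- The behaviour of a word in the tour. -/
noncomputable def wordBeh (D : TwoWayNFA α σ) (w : List α) : Beh (Option σ × Bool) :=
  (w.map (fun a => permBeh (letterPerm D a))).prod

lemma wordBeh_append (D : TwoWayNFA α σ) (u v : List α) :
    wordBeh D (u ++ v) = wordBeh D u * wordBeh D v := by
  simp [wordBeh, List.prod_append]

open Classical in
/-- The tour decides acceptance through the behaviour of the word. -/
theorem accepts_iff_tour (D : TwoWayNFA α σ) (hD : D.IsDeterministic) (w : List α) :
    D.Accepts w ↔ (permBeh (lperm (startEdge D) rootEdge)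
        * permBeh (tourPerm (exitF D Cell.leftEnd)) * wordBeh D w
        * permBeh (tourPerm (exitF D Cell.rightEnd)) * permBeh partner).rel
      (fwd (startEdge D)) (fwd rootEdge) := by
  rw [accepts_iff_fwd D hD, ← tour_iff (ls := startEdge D) rfl rfl]
  have : (tourTape (tapeCf D w) (startEdge D) rootEdge).prod =
      permBeh (lperm (startEdge D) rootEdge)
        * permBeh (tourPerm (exitF D Cell.leftEnd)) * wordBeh D w
        * permBeh (tourPerm (exitF D Cell.rightEnd)) * permBeh partner := by
    simp [tourTape, tapeCf, cells, wordBeh, letterPerm, List.prod_append, mul_assoc, Function.comp_def]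
  rw [this]

end tour

/-- Composition of words. -/
lemma wordRel_append {h : ℕ} (u v : List (Fin h → Fin h → Bool)) (a c : Fin h) :
    wordRel (u ++ v) a c ↔ ∃ b, wordRel u a b ∧ wordRel v b c := by
  induction u generalizing a with
  | nil =>
    simp only [List.nil_append, wordRel]
    constructor
    · intro h1
      exact ⟨a, rfl, h1⟩
    · rintro ⟨b, rfl, h1⟩
      exact h1
  | cons R u ih =>
    simp only [List.cons_append, wordRel]
    constructor
    · rintro ⟨b, h1, h2⟩
      obtain ⟨b', h3, h4⟩ := (ih b).mp h2
      exact ⟨b', ⟨b, h1, h3⟩, h4⟩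
    · rintro ⟨b', ⟨b, h1, h3⟩, h4⟩
      exact ⟨b, h1, (ih b).mpr ⟨b', h3, h4⟩⟩

/-- The word `[a-source] ++ u ++ [b-target]` is live iff `u` relates `a` to `b`. -/
lemma liveness_context {h : ℕ} (u : List (Fin h → Fin h → Bool)) (a b : Fin h) :
    ((fun _ y => decide (y = a)) :: (u ++ [fun x _ => decide (x = b)])) ∈ liveness h ↔ wordRel u a b := by
  constructor
  · rintro ⟨x, y, c, h1, h2⟩
    have hc : c = a := by simpa using h1
    subst hc
    obtain ⟨d, h3, e, h4, _⟩ := (wordRel_append _ _ _ _).mp h2
    have hd : d = b := by simpa using h4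
    subst hd
    exact h3
  · intro hu
    refine ⟨a, b, a, by simp, (wordRel_append _ _ _ _).mpr ⟨b, hu, b, by simp, rfl⟩⟩

/-- **Separation.** Equal tour behaviours give equal relations. -/
theorem tour_separates {h : ℕ} {σ : Type u} [Finite σ]
    (D : TwoWayNFA (Fin h → Fin h → Bool) σ) (hD : D.IsDeterministic) (hL : D.language = liveness h)
    (u v : List (Fin h → Fin h → Bool)) (huv : wordBeh D u = wordBeh D v) (a b : Fin h) :
    wordRel u a b ↔ wordRel v a b := by
  classical
  have key : ∀ w : List (Fin h → Fin h → Bool), w ∈ liveness h ↔ D.Accepts w := by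
    intro w
    rw [← hL]
    exact Iff.rfl
  rw [← liveness_context u a b, ← liveness_context v a b, key, key,
    accepts_iff_tour D hD, accepts_iff_tour D hD]
  have hw : ∀ (x y : Fin h → Fin h → Bool) (w : List (Fin h → Fin h → Bool)),
      wordBeh D (x :: (w ++ [y])) = wordBeh D [x] * wordBeh D w * wordBeh D [y] := by
    intro x y w
    have : x :: (w ++ [y]) = [x] ++ w ++ [y] := by simp
    rw [this, wordBeh_append, wordBeh_append]
  rw [hw, hw, huv]

/-- The number of tour darts. -/
lemma card_tour_darts (σ : Type u) [Fintype σ] :
    Fintype.card (Dart (Option σ × Bool)) = 4 * (Fintype.card σ + 1) := by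
  simp only [Dart, Fintype.card_prod, Fintype.card_option, Fintype.card_bool]
  ring

end Crest.Agent.Lib.TwoWayBeh
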