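import Crest.Agent.Lib.TwoWayBeh.Tape

/-!
# Euler tours of functional tapes

A functional tape is a list of exit functions `f : Q → Option (Dart Q)`. The forward walker follows
them. The tour walker walks around the forest of the forward walker, on darts of `Q × Bool`
(state, forward?) with a direction: four darts per state. Each cell of the tour walker is a
permutation. The main theorem `tour_iff`: the forward walker goes from the start edge to the root
edge iff the tour walker does.
-/

set_option autoImplicit false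

namespace Crest.Agent.Lib.TwoWayBeh

universe u

variable {Q : Type u}

/-- The behaviour of a permutation of darts. -/
def permBeh (X : Equiv.Perm (Dart Q)) : Beh Q := ⟨fun d e => X d = e⟩

/-- The behaviour of an exit function. -/
def fBeh (f : Q → Option (Dart Q)) : Beh Q := ⟨fun d e => f d.1 = some e⟩

/-- Any finite type has a permutation with one orbit. -/
lemma exists_one_orbit (F : Type*) [Finite F] :
    ∃ ρ : Equiv.Perm F, ∀ a b : F, ∃ n : ℕ, (ρ ^ n) a = b := by
  obtain ⟨n, ⟨e⟩⟩ := Finite.exists_equiv_fin F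
  cases n with
  | zero =>
    refine ⟨1, fun a _ => ?_⟩
    exact (IsEmpty.false (e a)).elim
  | succ n =>
    refine ⟨e.trans ((finRotate (n + 1)).trans e.symm), fun a b => ?_⟩
    have hval : ∀ (k : ℕ) (i : Fin (n + 1)), (((finRotate (n + 1)) ^ k) i).val = (i.val + k) % (n + 1) := by
      intro k i
      induction k with
      | zero => simp [Nat.mod_eq_of_lt i.isLt]
      | succ k ih =>
        rw [pow_succ', Equiv.Perm.mul_apply, finRotate_apply, Fin.val_add, ih]
        simp only [Fin.val_one', Nat.add_mod_mod, Nat.mod_add_mod]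
        rw [Nat.add_assoc]
    have key : ∀ k : ℕ, ((e.trans ((finRotate (n + 1)).trans e.symm)) ^ k) a
        = e.symm (((finRotate (n + 1)) ^ k) (e a)) := by
      intro k
      induction k with
      | zero => simp
      | succ k ih =>
        rw [pow_succ', Equiv.Perm.mul_apply, ih, pow_succ', Equiv.Perm.mul_apply]
        simp [Equiv.trans_apply]
    refine ⟨(e b).val + (n + 1) - (e a).val, ?_⟩
    rw [key]
    have h1 : ((finRotate (n + 1) ^ ((e b).val + (n + 1) - (e a).val)) (e a)) = e b := by
      apply Fin.ext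
      rw [hval]
      have h2 : (e a).val + ((e b).val + (n + 1) - (e a).val) = (e b).val + (n + 1) := by
        have := (e a).isLt
        omega
      rw [h2, Nat.add_mod_right, Nat.mod_eq_of_lt (e b).isLt]
    rw [h1]
    simp

/-- For any map on a finite type there is a permutation whose orbits are the fibres. -/
lemma exists_fiber_cycle {E G : Type*} [Finite E] (g : E → G) :
    ∃ ρ : Equiv.Perm E, (∀ a, g (ρ a) = g a) ∧ (∀ a b, g a = g b → ∃ n : ℕ, (ρ ^ n) a = b) := by
  classical
  have hfib : ∀ y : G, ∃ ρ : Equiv.Perm {x // g x = y}, ∀ a b, ∃ n : ℕ, (ρ ^ n) a = b :=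
    fun y => exists_one_orbit _
  choose r hr using hfib
  let e := Equiv.sigmaFiberEquiv g
  let ρ : Equiv.Perm E := e.symm.trans ((Equiv.sigmaCongrRight r).trans e)
  have hρ : ∀ a : E, ρ a = (r (g a) ⟨a, rfl⟩).1 := fun a => rfl
  have hg : ∀ a, g (ρ a) = g a := by
    intro a
    rw [hρ]
    exact (r (g a) ⟨a, rfl⟩).2
  refine ⟨ρ, hg, ?_⟩
  intro a b hab
  have hpow : ∀ (n : ℕ) (y : G) (x : {x // g x = y}), (ρ ^ n) x.1 = ((r y ^ n) x).1 := by
    intro n y x
    induction n with
    | zero => simp
    | succ n ih =>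
      rw [pow_succ', Equiv.Perm.mul_apply, ih, pow_succ', Equiv.Perm.mul_apply, hρ]
      generalize (r y ^ n) x = z
      obtain ⟨z, hz⟩ := z
      subst hz
      rfl
  obtain ⟨n, hn⟩ := hr (g a) ⟨a, rfl⟩ ⟨b, hab.symm⟩
  refine ⟨n, ?_⟩
  have := hpow n (g a) ⟨a, rfl⟩
  rw [hn] at this
  exact this

/-- The ends of a cell: in-copies (`inl`) and out-copies (`inr`) of edge labels. -/
abbrev Ends (Q : Type u) := Dart Q ⊕ Dart Q

/-- Forward dart along an edge. -/
def fwd (l : Dart Q) : Dart (Q × Bool) := ((l.1, true), l.2)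
/-- Backward dart along an edge. -/
def bwd (l : Dart Q) : Dart (Q × Bool) := ((l.1, false), !l.2)

/-- The label of the edge of a dart. -/
def lab (x : Dart (Q × Bool)) : Dart Q := (x.1.1, if x.1.2 = true then x.2 else !x.2)

@[simp] lemma lab_fwd (l : Dart Q) : lab (fwd l) = l := by simp [lab, fwd]
@[simp] lemma lab_bwd (l : Dart Q) : lab (bwd l) = l := by simp [lab, bwd]

@[simp] lemma fwd_snd (l : Dart Q) : (fwd l).2 = l.2 := rfl
@[simp] lemma bwd_snd (l : Dart Q) : (bwd l).2 = !l.2 := rfl

lemma fwd_ne_bwd (l l' : Dart Q) : fwd l ≠ bwd l' := by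
  simp [fwd, bwd]

lemma fwd_injective : Function.Injective (fwd : Dart Q → _) := fun a b h => by
  have := congrArg lab h
  simpa using this

lemma bwd_injective : Function.Injective (bwd : Dart Q → _) := fun a b h => by
  have := congrArg lab h
  simpa using this

/-- Arrival at a cell along an end. -/
def inEnd : Dart (Q × Bool) ≃ Ends Q where
  toFun x := if x.1.2 = true then Sum.inl (x.1.1, x.2) else Sum.inr (x.1.1, !x.2)
  invFun a := match a with
    | Sum.inl l => fwd l
    | Sum.inr l => bwd l
  left_inv := by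
    rintro ⟨⟨q, f⟩, s⟩
    cases f <;> simp [fwd, bwd]
  right_inv := by
    rintro (⟨q, s⟩ | ⟨q, s⟩) <;> simp [fwd, bwd]

/-- Leaving a cell along an end. -/
def outEnd : Dart (Q × Bool) ≃ Ends Q where
  toFun x := if x.1.2 = true then Sum.inr (x.1.1, x.2) else Sum.inl (x.1.1, !x.2)
  invFun a := match a with
    | Sum.inl l => bwd l
    | Sum.inr l => fwd l
  left_inv := by
    rintro ⟨⟨q, f⟩, s⟩
    cases f <;> simp [fwd, bwd]
  right_inv := by
    rintro (⟨q, s⟩ | ⟨q, s⟩) <;> simp [fwd, bwd]

/-- The node of an end. -/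
def endG (f : Q → Option (Dart Q)) : Ends Q → Option (Dart Q)
  | Sum.inl l => f l.1
  | Sum.inr e => some e

section rho
variable [Finite Q]

/-- The rotation at the nodes of a cell. -/
noncomputable def rho (f : Q → Option (Dart Q)) : Equiv.Perm (Ends Q) :=
  Classical.choose (exists_fiber_cycle (endG f))

lemma rho_g (f : Q → Option (Dart Q)) (a : Ends Q) : endG f (rho f a) = endG f a :=
  (Classical.choose_spec (exists_fiber_cycle (endG f))).1 a

lemma rho_orbit (f : Q → Option (Dart Q)) (a b : Ends Q) (h : endG f a = endG f b) :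
    ∃ n : ℕ, (rho f ^ n) a = b :=
  (Classical.choose_spec (exists_fiber_cycle (endG f))).2 a b h

/-- The tour permutation of a cell. -/
noncomputable def tourPerm (f : Q → Option (Dart Q)) : Equiv.Perm (Dart (Q × Bool)) :=
  inEnd.trans ((rho f).trans outEnd.symm)

lemma tourPerm_apply (f : Q → Option (Dart Q)) (a : Ends Q) :
    tourPerm f (inEnd.symm a) = outEnd.symm (rho f a) := by
  simp [tourPerm]

end rho

/-- The partner of a dart: same edge, opposite side of it. -/
def partner : Equiv.Perm (Dart (Q × Bool)) where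
  toFun x := ((x.1.1, !x.1.2), !x.2)
  invFun x := ((x.1.1, !x.1.2), !x.2)
  left_inv := by rintro ⟨⟨q, f⟩, s⟩; simp
  right_inv := by rintro ⟨⟨q, f⟩, s⟩; simp

@[simp] lemma partner_apply (x : Dart (Q × Bool)) : partner x = ((x.1.1, !x.1.2), !x.2) := rfl

lemma lab_partner (x : Dart (Q × Bool)) : lab (partner x) = lab x := by
  obtain ⟨⟨q, f⟩, s⟩ := x
  cases f <;> simp [lab]

lemma partner_fwd (l : Dart Q) : partner (fwd l) = bwd l := by simp [fwd, bwd]
lemma partner_bwd (l : Dart Q) : partner (bwd l) = fwd l := by simp [fwd, bwd]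

section ends
variable [DecidableEq Q]

/-- The left wall of the tour: identity on the darts of the start and root edges, partner
elsewhere. -/
def lperm (ls lr : Dart Q) : Equiv.Perm (Dart (Q × Bool)) where
  toFun x := if lab x = ls ∨ lab x = lr then x else partner x
  invFun x := if lab x = ls ∨ lab x = lr then x else partner x
  left_inv := by
    intro x
    by_cases h : lab x = ls ∨ lab x = lr
    · simp [h]
    · simp only [h, if_false, lab_partner]
      exact partner.left_inv x
  right_inv := by
    intro x
    by_cases h : lab x = ls ∨ lab x = lr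
    · simp [h]
    · simp only [h, if_false, lab_partner]
      exact partner.left_inv x

lemma lperm_apply (ls lr : Dart Q) (x : Dart (Q × Bool)) :
    lperm ls lr x = if lab x = ls ∨ lab x = lr then x else partner x := rfl

end ends


section tape
variable [Finite Q] [DecidableEq Q] (Cf : List (Q → Option (Dart Q))) (ls lr : Dart Q)

/-- The forward tape. -/
def fwdTape : List (Beh Q) := Cf.map fBeh

/-- The tour tape. -/
noncomputable def tourTape : List (Beh (Q × Bool)) :=
  permBeh (lperm ls lr) :: (Cf.map (fun f => permBeh (tourPerm f)) ++ [permBeh partner])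

omit [Finite Q] [DecidableEq Q] in
lemma fwd_step_iff {a b : ℕ × Dart Q} :
    WStep (fwdTape Cf) a b ↔ ∃ k f, Cf[k]? = some f ∧
      (if a.2.2 = true then a.1 = k else a.1 = k + 1) ∧ f a.2.1 = some b.2 ∧
      b.1 = (if b.2.2 = true then k + 1 else k) := by
  constructor
  · rintro ⟨i, g, h1, h2, h3, h4⟩
    simp only [fwdTape, List.getElem?_map, Option.map_eq_some_iff] at h1
    obtain ⟨f, hf, rfl⟩ := h1
    exact ⟨i, f, hf, h2, h3, h4⟩
  · rintro ⟨k, f, h1, h2, h3, h4⟩
    refine ⟨k, fBeh f, ?_, h2, h3, h4⟩
    simp [fwdTape, h1]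

omit [Finite Q] [DecidableEq Q] in
lemma fwd_unique : Relator.RightUnique (WStep (fwdTape Cf)) := by
  intro a b c hb hc
  rw [fwd_step_iff] at hb hc
  obtain ⟨k, f, h1, h2, h3, h4⟩ := hb
  obtain ⟨k', f', h1', h2', h3', h4'⟩ := hc
  have hk : k = k' := by
    split_ifs at h2 h2' <;> omega
  subst hk
  have hf : f = f' := by
    rw [h1] at h1'
    simpa using h1'
  subst hf
  have hb2 : b.2 = c.2 := by
    rw [h3] at h3'
    simpa using h3'
  apply Prod.ext
  · rw [h4, h4', hb2]
  · exact hb2

/-- An edge is good when the forward walker goes from it to the root. -/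
def Good (a : ℕ × Dart Q) : Prop :=
  Relation.ReflTransGen (WStep (fwdTape Cf)) a (0, lr)

variable {Cf lr}

omit [Finite Q] [DecidableEq Q] in
lemma good_of_step (hr : lr.2 = false) {a b : ℕ × Dart Q} (h : WStep (fwdTape Cf) a b) :
    Good Cf lr a ↔ Good Cf lr b := by
  constructor
  · intro hg
    rcases Relation.ReflTransGen.cases_head hg with h0 | ⟨c, h1, h2⟩
    · subst h0
      exact absurd h (not_step_left hr)
    · have := fwd_unique Cf h h1
      subst this
      exact h2
  · intro hg
    exact Relation.ReflTransGen.head h hg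

omit [Finite Q] [DecidableEq Q] in
lemma no_cycle (hr : lr.2 = false) {a : ℕ × Dart Q}
    (hc : Relation.TransGen (WStep (fwdTape Cf)) a a) (hg : Good Cf lr a) : False := by
  have key : ∀ x, Relation.ReflTransGen (WStep (fwdTape Cf)) a x →
      Relation.ReflTransGen (WStep (fwdTape Cf)) x a := by
    intro x hx
    induction hx with
    | refl => exact Relation.ReflTransGen.refl
    | @tail x z _ hs ih =>
      rcases Relation.ReflTransGen.cases_head ih with h0 | ⟨y, h1, h2⟩
      · subst h0
        obtain ⟨y, h1, h2⟩ := Relation.TransGen.head'_iff.mp hc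
        have := fwd_unique Cf hs h1
        subst this
        exact h2
      · have := fwd_unique Cf hs h1
        subst this
        exact h2
  have h1 := key _ hg
  have h2 := terminal_left hr h1
  subst h2
  obtain ⟨y, h3, _⟩ := Relation.TransGen.head'_iff.mp hc
  exact not_step_left hr h3

omit [Finite Q] [DecidableEq Q] in
/-- Two predecessors of a good edge, both reachable from one edge, are equal. -/
lemma pred_unique (hr : lr.2 = false) {s e1 e2 x : ℕ × Dart Q}
    (h1 : Relation.ReflTransGen (WStep (fwdTape Cf)) s e1)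
    (h2 : Relation.ReflTransGen (WStep (fwdTape Cf)) s e2)
    (s1 : WStep (fwdTape Cf) e1 x) (s2 : WStep (fwdTape Cf) e2 x) (hg : Good Cf lr x) : e1 = e2 := by
  have aux : ∀ {u v : ℕ × Dart Q}, Relation.ReflTransGen (WStep (fwdTape Cf)) u v →
      WStep (fwdTape Cf) u x → WStep (fwdTape Cf) v x → u = v := by
    intro u v huv su sv
    rcases Relation.ReflTransGen.cases_head huv with h0 | ⟨y, h3, h4⟩
    · exact h0
    · have := fwd_unique Cf su h3
      subst this
      exact (no_cycle hr (Relation.TransGen.tail' h4 sv) hg).elim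
  rcases Relation.ReflTransGen.total_of_right_unique (fwd_unique Cf) h1 h2 with h | h
  · exact aux h s1 s2
  · exact (aux h s2 s1).symm

/-- The edge of an end of the cell number `k`. -/
def edgeOf (k : ℕ) : Ends Q → ℕ × Dart Q
  | Sum.inl l => (if l.2 = true then k else k + 1, l)
  | Sum.inr l => (if l.2 = true then k + 1 else k, l)

/-- backward configuration of an edge -/
def Bc (e : ℕ × Dart Q) : ℕ × Dart (Q × Bool) := (e.1 + 1, bwd e.2)
/-- forward configuration of an edge -/
def Fc (e : ℕ × Dart Q) : ℕ × Dart (Q × Bool) := (e.1 + 1, fwd e.2)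

omit [Finite Q] [DecidableEq Q] in
lemma fw_edge {k : ℕ} {f : Q → Option (Dart Q)} (hk : Cf[k]? = some f) {l e : Dart Q}
    (h : f l.1 = some e) : WStep (fwdTape Cf) (edgeOf k (Sum.inl l)) (edgeOf k (Sum.inr e)) := by
  rw [fwd_step_iff]
  refine ⟨k, f, hk, ?_, h, ?_⟩
  · simp only [edgeOf]
    split_ifs <;> rfl
  · rfl

omit [Finite Q] [DecidableEq Q] in
/-- Good edges at one node of a cell. -/
lemma good_iff_of_node (hr : lr.2 = false) {k : ℕ} {f : Q → Option (Dart Q)} (hk : Cf[k]? = some f)
    {a b : Ends Q} (h : endG f a = endG f b) :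
    Good Cf lr (edgeOf k a) ↔ Good Cf lr (edgeOf k b) := by
  have key1 : ∀ (a : Ends Q) (e : Dart Q), endG f a = some e →
      (Good Cf lr (edgeOf k a) ↔ Good Cf lr (edgeOf k (Sum.inr e))) := by
    rintro (l | l) e h1
    · exact good_of_step hr (fw_edge hk h1)
    · simp only [endG, Option.some.injEq] at h1
      subst h1
      exact Iff.rfl
  have key2 : ∀ a : Ends Q, endG f a = none → ¬ Good Cf lr (edgeOf k a) := by
    rintro (l | l) h1 hg
    · simp only [endG] at h1
      rcases Relation.ReflTransGen.cases_head hg with h0 | ⟨c, h2, _⟩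
      · have h3 : l = lr := by
          have := congrArg Prod.snd h0
          simpa [edgeOf] using this
        subst h3
        have := congrArg Prod.fst h0
        simp [edgeOf, hr] at this
      · rw [fwd_step_iff] at h2
        obtain ⟨k', f', h3, h4, h5, _⟩ := h2
        have hk' : k' = k := by
          simp only [edgeOf] at h4
          split_ifs at h4 <;> simp_all
        subst hk'
        have : f' = f := by
          rw [hk] at h3
          simpa using h3.symm
        subst this
        simp only [edgeOf] at h5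
        rw [h1] at h5
        simp at h5
    · simp [endG] at h1
  cases ha : endG f a with
  | none =>
    have hb : endG f b = none := by rw [← h, ha]
    exact ⟨fun h' => (key2 a ha h').elim, fun h' => (key2 b hb h').elim⟩
  | some e =>
    have hb : endG f b = some e := by rw [← h, ha]
    exact (key1 a e ha).trans (key1 b e hb).symm

/-- arrival configuration -/
def arrC (k : ℕ) (a : Ends Q) : ℕ × Dart (Q × Bool) := ((edgeOf k a).1 + 1, inEnd.symm a)
/-- leaving configuration -/
def leaveC (k : ℕ) (a : Ends Q) : ℕ × Dart (Q × Bool) := ((edgeOf k a).1 + 1, outEnd.symm a)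

omit [Finite Q] [DecidableEq Q] in
@[simp] lemma arrC_inl (k : ℕ) (l : Dart Q) : arrC k (Sum.inl l) = Fc (edgeOf k (Sum.inl l)) := rfl
omit [Finite Q] [DecidableEq Q] in
@[simp] lemma arrC_inr (k : ℕ) (l : Dart Q) : arrC k (Sum.inr l) = Bc (edgeOf k (Sum.inr l)) := rfl
omit [Finite Q] [DecidableEq Q] in
@[simp] lemma leaveC_inl (k : ℕ) (l : Dart Q) : leaveC k (Sum.inl l) = Bc (edgeOf k (Sum.inl l)) := rfl
omit [Finite Q] [DecidableEq Q] in
@[simp] lemma leaveC_inr (k : ℕ) (l : Dart Q) : leaveC k (Sum.inr l) = Fc (edgeOf k (Sum.inr l)) := rfl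

variable (Cf lr)

lemma tour_get_zero : (tourTape Cf ls lr)[0]? = some (permBeh (lperm ls lr)) := rfl

lemma tour_get_succ {k : ℕ} {f : Q → Option (Dart Q)} (hk : Cf[k]? = some f) :
    (tourTape Cf ls lr)[k + 1]? = some (permBeh (tourPerm f)) := by
  have hlt : k < Cf.length := by
    by_contra h
    rw [List.getElem?_eq_none (by omega)] at hk
    simp at hk
  simp only [tourTape, List.getElem?_cons_succ]
  rw [List.getElem?_append_left (by simpa using hlt)]
  simp [hk]

lemma tour_get_last : (tourTape Cf ls lr)[Cf.length + 1]? = some (permBeh partner) := by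
  simp only [tourTape, List.getElem?_cons_succ]
  rw [List.getElem?_append_right (by simp)]
  simp

lemma tour_get_cases {k : ℕ} {g : Beh (Q × Bool)} (h : (tourTape Cf ls lr)[k + 1]? = some g) :
    (∃ f, Cf[k]? = some f ∧ g = permBeh (tourPerm f)) ∨ (k = Cf.length ∧ g = permBeh partner) := by
  simp only [tourTape, List.getElem?_cons_succ] at h
  by_cases hk : k < Cf.length
  · rw [List.getElem?_append_left (by simpa using hk)] at h
    simp only [List.getElem?_map, Option.map_eq_some_iff] at h
    obtain ⟨f, h1, rfl⟩ := h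
    exact Or.inl ⟨f, h1, rfl⟩
  · rw [List.getElem?_append_right (by simpa using hk)] at h
    simp only [List.length_map] at h
    by_cases hk2 : k = Cf.length
    · subst hk2
      simp only [Nat.sub_self, List.getElem?_cons_zero, Option.some.injEq] at h
      exact Or.inr ⟨rfl, h.symm⟩
    · exfalso
      have : [permBeh (partner : Equiv.Perm (Dart (Q × Bool)))][k - Cf.length]? = none := by
        simp only [List.getElem?_eq_none_iff, List.length_singleton]; omega
      rw [this] at h
      simp at h

variable {Cf ls lr}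

lemma tour_step {k : ℕ} {f : Q → Option (Dart Q)} (hk : Cf[k]? = some f) (a : Ends Q) :
    WStep (tourTape Cf ls lr) (arrC k a) (leaveC k (rho f a)) := by
  refine ⟨k + 1, _, tour_get_succ Cf ls lr hk, ?_, tourPerm_apply f a, ?_⟩
  · rcases a with ⟨q, s⟩ | ⟨q, s⟩ <;> cases s <;> simp [arrC, edgeOf, inEnd, fwd, bwd]
  · generalize rho f a = b
    rcases b with ⟨q, s⟩ | ⟨q, s⟩ <;> cases s <;> simp [leaveC, edgeOf, outEnd, fwd, bwd]


/-- Traversal at an interior node: around the node from the out-copy back to it. -/
lemma traverse_interior {k : ℕ} {f : Q → Option (Dart Q)} (hk : Cf[k]? = some f) (l : Dart Q)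
    (IH : ∀ l' : Dart Q, f l'.1 = some l →
      Relation.ReflTransGen (WStep (tourTape Cf ls lr))
        (Bc (edgeOf k (Sum.inl l'))) (Fc (edgeOf k (Sum.inl l')))) :
    Relation.ReflTransGen (WStep (tourTape Cf ls lr))
      (Bc (edgeOf k (Sum.inr l))) (Fc (edgeOf k (Sum.inr l))) := by
  set B := Bc (edgeOf k (Sum.inr l)) with hB
  set F := Fc (edgeOf k (Sum.inr l)) with hF
  have hg : ∀ m : ℕ, endG f ((rho f ^ m) (Sum.inr l)) = some l := by
    intro m
    induction m with
    | zero => rfl
    | succ m ih =>
      rw [pow_succ', Equiv.Perm.mul_apply, rho_g, ih]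
  have next : ∀ m : ℕ, Relation.ReflTransGen (WStep (tourTape Cf ls lr)) B
      (arrC k ((rho f ^ m) (Sum.inr l))) →
      Relation.ReflTransGen (WStep (tourTape Cf ls lr)) B F ∨
      ∃ l', (rho f ^ (m + 1)) (Sum.inr l) = Sum.inl l' ∧
        Relation.ReflTransGen (WStep (tourTape Cf ls lr)) B (arrC k (Sum.inl l')) := by
    intro m hm
    have hstep := tour_step (ls := ls) (lr := lr) hk ((rho f ^ m) (Sum.inr l))
    have hy : rho f ((rho f ^ m) (Sum.inr l)) = (rho f ^ (m + 1)) (Sum.inr l) := by
      rw [pow_succ', Equiv.Perm.mul_apply]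
    rw [hy] at hstep
    have hgy := hg (m + 1)
    cases hc : (rho f ^ (m + 1)) (Sum.inr l) with
    | inl l' =>
      rw [hc] at hstep hgy
      right
      refine ⟨l', rfl, (hm.tail hstep).trans ?_⟩
      exact IH l' hgy
    | inr l'' =>
      rw [hc] at hstep hgy
      have : l'' = l := by simpa [endG] using hgy
      subst this
      left
      exact hm.tail hstep
  have claim : ∀ m : ℕ, Relation.ReflTransGen (WStep (tourTape Cf ls lr)) B F ∨
      ∃ l', (rho f ^ (m + 1)) (Sum.inr l) = Sum.inl l' ∧
        Relation.ReflTransGen (WStep (tourTape Cf ls lr)) B (arrC k (Sum.inl l')) := by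
    intro m
    induction m with
    | zero => exact next 0 (by simpa using Relation.ReflTransGen.refl)
    | succ m ih =>
      rcases ih with h | ⟨l', h1, h2⟩
      · exact Or.inl h
      · refine next (m + 1) ?_
        rw [h1]
        exact h2
  have hord : 0 < orderOf (rho f) := orderOf_pos _
  obtain ⟨m, hm⟩ : ∃ m, orderOf (rho f) = m + 1 := ⟨orderOf (rho f) - 1, by omega⟩
  rcases claim m with h | ⟨l', h1, _⟩
  · exact h
  · rw [← hm, pow_orderOf_eq_one] at h1
    simp at h1

/-- From the forward dart of an in-copy to the forward dart of the out-copy of its node. -/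
lemma forward_step_tour {k : ℕ} {f : Q → Option (Dart Q)} (hk : Cf[k]? = some f) {l e : Dart Q}
    (hfl : f l.1 = some e)
    (IH : ∀ l' : Dart Q, f l'.1 = some e → l' ≠ l →
      Relation.ReflTransGen (WStep (tourTape Cf ls lr))
        (Bc (edgeOf k (Sum.inl l'))) (Fc (edgeOf k (Sum.inl l')))) :
    Relation.ReflTransGen (WStep (tourTape Cf ls lr))
      (Fc (edgeOf k (Sum.inl l))) (Fc (edgeOf k (Sum.inr e))) := by
  classical
  have hex : ∃ n : ℕ, (rho f ^ n) (Sum.inl l) = Sum.inr e :=
    rho_orbit f _ _ (by simp [endG, hfl])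
  set n0 := Nat.find hex with hn0
  have hn0s : (rho f ^ n0) (Sum.inl l) = Sum.inr e := Nat.find_spec hex
  have hmin : ∀ m, m < n0 → (rho f ^ m) (Sum.inl l) ≠ Sum.inr e := fun m hm => Nat.find_min hex hm
  have hg : ∀ m : ℕ, endG f ((rho f ^ m) (Sum.inl l)) = some e := by
    intro m
    induction m with
    | zero => simpa [endG] using hfl
    | succ m ih =>
      rw [pow_succ', Equiv.Perm.mul_apply, rho_g, ih]
  have hpos : 0 < n0 := by
    rcases Nat.eq_zero_or_pos n0 with h | h
    · rw [h] at hn0s
      simp at hn0s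
    · exact h
  have claim : ∀ m, m < n0 → ∃ l', (rho f ^ m) (Sum.inl l) = Sum.inl l' ∧
      Relation.ReflTransGen (WStep (tourTape Cf ls lr))
        (Fc (edgeOf k (Sum.inl l))) (arrC k (Sum.inl l')) := by
    intro m
    induction m with
    | zero =>
      intro _
      exact ⟨l, rfl, Relation.ReflTransGen.refl⟩
    | succ m ih =>
      intro hm
      obtain ⟨l1, h1, h2⟩ := ih (by omega)
      have hstep := tour_step (ls := ls) (lr := lr) hk (Sum.inl l1)
      have hy : rho f (Sum.inl l1) = (rho f ^ (m + 1)) (Sum.inl l) := by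
        rw [pow_succ', Equiv.Perm.mul_apply, h1]
      rw [hy] at hstep
      have hgy := hg (m + 1)
      cases hc : (rho f ^ (m + 1)) (Sum.inl l) with
      | inr x =>
        rw [hc] at hgy
        have : x = e := by simpa [endG] using hgy
        subst this
        exact absurd hc (hmin _ hm)
      | inl l' =>
        rw [hc] at hstep hgy
        refine ⟨l', rfl, (h2.tail hstep).trans ?_⟩
        refine IH l' hgy ?_
        rintro rfl
        -- the orbit returned to its start before reaching the out-copy
        have h3 : (rho f ^ (n0 - (m + 1))) (Sum.inl l') = Sum.inr e := by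
          have h4 : (rho f ^ n0) (Sum.inl l') = (rho f ^ (n0 - (m + 1))) ((rho f ^ (m + 1)) (Sum.inl l')) := by
            rw [← Equiv.Perm.mul_apply, ← pow_add]
            congr 2
            omega
          rw [hc] at h4
          rw [← h4, hn0s]
        exact hmin _ (by omega) h3
  obtain ⟨m, hm⟩ : ∃ m, n0 = m + 1 := ⟨n0 - 1, by omega⟩
  obtain ⟨l1, h1, h2⟩ := claim m (by omega)
  have hstep := tour_step (ls := ls) (lr := lr) hk (Sum.inl l1)
  have hy : rho f (Sum.inl l1) = Sum.inr e := by
    rw [← h1, ← Equiv.Perm.mul_apply, ← pow_succ', ← hm, hn0s]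
  rw [hy] at hstep
  exact h2.tail hstep

omit [DecidableEq Q] in
lemma edge_finite (n : ℕ) : Finite {e : ℕ × Dart Q // e.1 ≤ n} := by
  have : ({e : ℕ × Dart Q | e.1 ≤ n}).Finite := by
    refine Set.Finite.subset ((Set.finite_Iic n).prod (Set.finite_univ (α := Dart Q))) ?_
    intro e he
    exact ⟨he, Set.mem_univ _⟩
  exact this.to_subtype

omit [Finite Q] [DecidableEq Q] in
lemma edgeOf_cut_le {k : ℕ} {f : Q → Option (Dart Q)} (hk : Cf[k]? = some f) (a : Ends Q) :
    (edgeOf k a).1 ≤ Cf.length := by
  have hlt : k < Cf.length := by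
    by_contra h
    rw [List.getElem?_eq_none (by omega)] at hk
    simp at hk
  rcases a with l | l <;> simp only [edgeOf] <;> split_ifs <;> omega

/-- Traversal of the subtree of an edge not reached from the start. -/
theorem traverse (hs : ls.2 = true) (hr : lr.2 = false) (e : ℕ × Dart Q) (he : e.1 ≤ Cf.length)
    (hg : Good Cf lr e) (hns : ¬ Relation.ReflTransGen (WStep (fwdTape Cf)) (0, ls) e) :
    Relation.ReflTransGen (WStep (tourTape Cf ls lr)) (Bc e) (Fc e) := by
  classical
  have := edge_finite (Q := Q) Cf.length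
  let r : {e : ℕ × Dart Q // e.1 ≤ Cf.length} → {e : ℕ × Dart Q // e.1 ≤ Cf.length} → Prop :=
    fun x y => Relation.TransGen (WStep (fwdTape Cf)) x.1 y.1 ∧ Good Cf lr y.1
  have : IsTrans _ r := ⟨fun a b c hab hbc => ⟨hab.1.trans hbc.1, hbc.2⟩⟩
  have : Std.Irrefl r := ⟨fun a ha => no_cycle hr ha.1 ha.2⟩
  have wf : WellFounded r := Finite.wellFounded_of_trans_of_irrefl r
  have main : ∀ x : {e : ℕ × Dart Q // e.1 ≤ Cf.length}, Good Cf lr x.1 →
      ¬ Relation.ReflTransGen (WStep (fwdTape Cf)) (0, ls) x.1 →
      Relation.ReflTransGen (WStep (tourTape Cf ls lr)) (Bc x.1) (Fc x.1) := by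
    intro x
    induction x using wf.induction with
    | _ x IH =>
      intro hgx hnsx
      obtain ⟨⟨j, l⟩, hj⟩ := x
      simp only at hgx hnsx hj
      -- interior case from a cell index
      have interior : ∀ k f, Cf[k]? = some f → (j, l) = edgeOf k (Sum.inr l) →
          Relation.ReflTransGen (WStep (tourTape Cf ls lr)) (Bc (j, l)) (Fc (j, l)) := by
        intro k f hk hjl
        rw [hjl]
        refine traverse_interior hk l (fun l' hl' => ?_)
        have hst : WStep (fwdTape Cf) (edgeOf k (Sum.inl l')) (j, l) := by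
          rw [hjl]
          exact fw_edge hk hl'
        have hg' : Good Cf lr (edgeOf k (Sum.inl l')) := (good_of_step hr hst).mpr hgx
        have hns' : ¬ Relation.ReflTransGen (WStep (fwdTape Cf)) (0, ls) (edgeOf k (Sum.inl l')) :=
          fun h => hnsx (h.tail hst)
        exact IH ⟨edgeOf k (Sum.inl l'), edgeOf_cut_le hk _⟩
          ⟨Relation.TransGen.single hst, hgx⟩ hg' hns'
      cases hl : l.2 with
      | true =>
        cases j with
        | zero =>
          -- left wall
          refine Relation.ReflTransGen.single ⟨0, _, tour_get_zero Cf ls lr, ?_, ?_, ?_⟩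
          · simp [Bc, hl]
          · have h1 : ¬ (l = ls ∨ l = lr) := by
              rintro (h | h)
              · subst h
                exact hnsx Relation.ReflTransGen.refl
              · subst h
                simp [hl] at hr
            change (lperm ls lr) (bwd l) = fwd l
            rw [lperm_apply, lab_bwd, if_neg h1]
            exact partner_bwd l
          · simp [Fc, hl]
        | succ k =>
          have hlt : k < Cf.length := by omega
          obtain ⟨f, hf⟩ : ∃ f, Cf[k]? = some f := ⟨Cf[k], List.getElem?_eq_getElem hlt⟩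
          exact interior k f hf (by simp [edgeOf, hl])
      | false =>
        by_cases hjn : j = Cf.length
        · subst hjn
          -- right wall
          refine Relation.ReflTransGen.single ⟨Cf.length + 1, _, tour_get_last Cf ls lr, ?_, ?_, ?_⟩
          · simp [Bc, hl]
          · exact partner_bwd l
          · simp [Fc, hl]
        · have hlt : j < Cf.length := by omega
          obtain ⟨f, hf⟩ : ∃ f, Cf[j]? = some f := ⟨Cf[j], List.getElem?_eq_getElem hlt⟩
          exact interior j f hf (by simp [edgeOf, hl])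
  exact main ⟨e, he⟩ hg hns

/-- The forward path from the start, in the tour. -/
theorem chain (hs : ls.2 = true) (hr : lr.2 = false) {e : ℕ × Dart Q}
    (hg : Good Cf lr e) :
    e.1 ≤ Cf.length → Relation.ReflTransGen (WStep (fwdTape Cf)) (0, ls) e →
    Relation.ReflTransGen (WStep (tourTape Cf ls lr)) (Fc e) (Fc (0, lr)) := by
  unfold Good at hg
  induction hg using Relation.ReflTransGen.head_induction_on with
  | refl => exact fun _ _ => Relation.ReflTransGen.refl
  | @head e e' hst hrest ih =>
    intro he hse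
    have hst' := hst
    rw [fwd_step_iff] at hst'
    obtain ⟨k, f, hk, hpos, hfl, hcut⟩ := hst'
    have h1 : e = edgeOf k (Sum.inl e.2) := by
      apply Prod.ext
      · simp only [edgeOf]
        split_ifs at hpos ⊢ <;> omega
      · rfl
    have h2 : e' = edgeOf k (Sum.inr e'.2) := by
      apply Prod.ext
      · simp only [edgeOf]
        exact hcut
      · rfl
    have hse' : Relation.ReflTransGen (WStep (fwdTape Cf)) (0, ls) e' := hse.tail hst
    have hge' : Good Cf lr e' := hrest
    have step1 : Relation.ReflTransGen (WStep (tourTape Cf ls lr)) (Fc e) (Fc e') := by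
      rw [h1, h2]
      refine forward_step_tour hk hfl (fun l' hl' hne => ?_)
      have hst2 : WStep (fwdTape Cf) (edgeOf k (Sum.inl l')) e' := by
        rw [h2]
        exact fw_edge hk hl'
      refine traverse hs hr _ (edgeOf_cut_le hk _) ((good_of_step hr hst2).mpr hge') ?_
      intro hs2
      have := pred_unique hr hse hs2 hst hst2 hge'
      apply hne
      have h3 := congrArg Prod.snd this
      simpa [edgeOf] using h3.symm
    have hcut' : e'.1 ≤ Cf.length := by
      rw [h2]
      exact edgeOf_cut_le hk _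
    exact step1.trans (ih hcut' hse')

omit [Finite Q] [DecidableEq Q] in
lemma edgeOf_inEnd (k : ℕ) (x : Dart (Q × Bool)) :
    edgeOf k (inEnd x) = ((if x.2 = true then k + 1 else k + 2) - 1, lab x) := by
  obtain ⟨⟨q, f⟩, s⟩ := x
  cases f <;> cases s <;> simp [edgeOf, inEnd, lab]

omit [Finite Q] [DecidableEq Q] in
lemma edgeOf_outEnd (k : ℕ) (y : Ends Q) :
    edgeOf k y = ((if (outEnd.symm y).2 = true then k + 2 else k + 1) - 1, lab (outEnd.symm y)) := by
  rcases y with ⟨q, s⟩ | ⟨q, s⟩ <;> cases s <;> simp [edgeOf, outEnd, lab, fwd, bwd]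

/-- The invariant of the tour walker. -/
lemma inv_step (hr : lr.2 = false) {a b : ℕ × Dart (Q × Bool)} (ha : a.1 ≤ Cf.length + 1)
    (h : WStep (tourTape Cf ls lr) a b) :
    b.1 ≤ Cf.length + 1 ∧ (Good Cf lr (a.1 - 1, lab a.2) ↔ Good Cf lr (b.1 - 1, lab b.2)) := by
  obtain ⟨i, g, h1, h2, h3, h4⟩ := h
  cases i with
  | zero =>
    rw [tour_get_zero] at h1
    simp only [Option.some.injEq] at h1
    subst h1
    change (lperm ls lr) a.2 = b.2 at h3
    by_cases hsp : lab a.2 = ls ∨ lab a.2 = lr
    · have hb : b.2 = a.2 := by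
        rw [← h3, lperm_apply, if_pos hsp]
      rw [hb] at h4 ⊢
      have hc : a.1 - 1 = b.1 - 1 := by
        split_ifs at h2 h4 <;> omega
      rw [hc]
      refine ⟨?_, Iff.rfl⟩
      split_ifs at h4 <;> omega
    · have hb : b.2 = partner a.2 := by
        rw [← h3, lperm_apply, if_neg hsp]
      have hlab : lab b.2 = lab a.2 := by rw [hb, lab_partner]
      have hd : b.2.2 = !a.2.2 := by rw [hb]; rfl
      rw [hlab]
      have hc : b.1 ≤ 1 ∧ a.1 - 1 = b.1 - 1 := by
        rw [hd] at h4
        cases h5 : a.2.2 <;> simp only [h5] at h2 h4 <;> simp at h2 h4 <;> omega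
      rw [hc.2]
      exact ⟨by omega, Iff.rfl⟩
  | succ k =>
    rcases tour_get_cases Cf ls lr h1 with ⟨f, hk, rfl⟩ | ⟨rfl, rfl⟩
    · change tourPerm f a.2 = b.2 at h3
      have h5 : tourPerm f a.2 = outEnd.symm (rho f (inEnd a.2)) := by
        have := tourPerm_apply f (inEnd a.2)
        simpa using this
      have hb : b.2 = outEnd.symm (rho f (inEnd a.2)) := by rw [← h3, h5]
      have e1 : edgeOf k (inEnd a.2) = (a.1 - 1, lab a.2) := by
        rw [edgeOf_inEnd]
        congr 1
        split_ifs at h2 ⊢ <;> omega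
      have e2 : edgeOf k (rho f (inEnd a.2)) = (b.1 - 1, lab b.2) := by
        rw [edgeOf_outEnd, ← hb]
        congr 1
        split_ifs at h4 ⊢ <;> omega
      rw [← e1, ← e2]
      refine ⟨?_, good_iff_of_node hr hk (rho_g f _).symm⟩
      have hlt : k < Cf.length := by
        by_contra hc
        rw [List.getElem?_eq_none (by omega)] at hk
        simp at hk
      split_ifs at h4 <;> omega
    · change partner a.2 = b.2 at h3
      have hlab : lab b.2 = lab a.2 := by rw [← h3, lab_partner]
      have hd : b.2.2 = !a.2.2 := by rw [← h3]; rfl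
      rw [hlab]
      have hc : b.1 = Cf.length + 1 ∧ a.1 = Cf.length + 1 := by
        rw [hd] at h4
        cases h5 : a.2.2 <;> simp only [h5] at h2 h4 <;> simp at h2 h4 <;> omega
      rw [hc.1, hc.2]
      exact ⟨le_refl _, Iff.rfl⟩

/-- **The Euler tour theorem.** -/
theorem tour_iff (hs : ls.2 = true) (hr : lr.2 = false) :
    (tourTape Cf ls lr).prod.rel (fwd ls) (fwd lr) ↔ (fwdTape Cf).prod.rel ls lr := by
  rw [prod_rel_iff, prod_rel_iff]
  have e1 : entryCut (tourTape Cf ls lr).length (fwd ls) = 0 := by simp [entryCut, hs]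
  have e2 : exitCut (tourTape Cf ls lr).length (fwd lr) = 0 := by simp [exitCut, hr]
  have e3 : entryCut (fwdTape Cf).length ls = 0 := by simp [entryCut, hs]
  have e4 : exitCut (fwdTape Cf).length lr = 0 := by simp [exitCut, hr]
  unfold WRel
  rw [e1, e2, e3, e4]
  constructor
  · intro h
    -- the invariant along the path
    have key : ∀ b, Relation.ReflTransGen (WStep (tourTape Cf ls lr)) (0, fwd ls) b →
        b.1 ≤ Cf.length + 1 ∧ (Good Cf lr (0, ls) ↔ Good Cf lr (b.1 - 1, lab b.2)) := by
      intro b hb
      induction hb with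
      | refl => exact ⟨by simp, by simp⟩
      | tail _ hst ih =>
        obtain ⟨h1, h2⟩ := inv_step hr ih.1 hst
        exact ⟨h1, ih.2.trans h2⟩
    have h1 := (key _ h).2
    simp only [lab_fwd, Nat.zero_sub] at h1
    exact h1.mpr Relation.ReflTransGen.refl
  · intro h
    have step0 : WStep (tourTape Cf ls lr) (0, fwd ls) (Fc (0, ls)) := by
      refine ⟨0, _, tour_get_zero Cf ls lr, by simp [hs], ?_, by simp [Fc, hs]⟩
      change (lperm ls lr) (fwd ls) = fwd ls
      rw [lperm_apply, if_pos (Or.inl (lab_fwd ls))]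
    have step1 : WStep (tourTape Cf ls lr) (Fc (0, lr)) (0, fwd lr) := by
      refine ⟨0, _, tour_get_zero Cf ls lr, by simp [Fc, hr], ?_, by simp [hr]⟩
      change (lperm ls lr) (fwd lr) = fwd lr
      rw [lperm_apply, if_pos (Or.inr (lab_fwd lr))]
    have := chain hs hr (e := (0, ls)) h (by simp) Relation.ReflTransGen.refl
    exact (Relation.ReflTransGen.head step0 this).tail step1

end tape

end Crest.Agent.Lib.TwoWayBeh
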