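import Crest.Agent.Lib.TwoWayBeh.Star

/-!
# A tape of behaviours

For a list `C` of behaviours, the star product of `C` is described by a walker: a configuration is a
cut `j` (between cells `j - 1` and `j`) and a dart crossing that cut.
-/

set_option autoImplicit false

namespace Crest.Agent.Lib.TwoWayBeh

universe u

variable {Q : Type u}

/-- One step of the walker. -/
def WStep (C : List (Beh Q)) (a b : ℕ × Dart Q) : Prop :=
  ∃ i f, C[i]? = some f ∧ (if a.2.2 = true then a.1 = i else a.1 = i + 1) ∧ f.rel a.2 b.2 ∧
    b.1 = (if b.2.2 = true then i + 1 else i)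

/-- The cut where a dart enters a tape with `n` cells. -/
def entryCut (n : ℕ) (d : Dart Q) : ℕ := if d.2 = true then 0 else n
/-- The cut where a dart leaves a tape with `n` cells. -/
def exitCut (n : ℕ) (d : Dart Q) : ℕ := if d.2 = true then n else 0

/-- The semantic behaviour of the tape. -/
def WRel (C : List (Beh Q)) (x y : Dart Q) : Prop :=
  Relation.ReflTransGen (WStep C) (entryCut C.length x, x) (exitCut C.length y, y)

section
variable {c : Beh Q} {D : List (Beh Q)}

lemma WStep.lift {a b : ℕ × Dart Q} (h : WStep D a b) :
    WStep (c :: D) (a.1 + 1, a.2) (b.1 + 1, b.2) := by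
  obtain ⟨i, f, h1, h2, h3, h4⟩ := h
  refine ⟨i + 1, f, by simpa using h1, ?_, h3, ?_⟩
  · dsimp only
    split_ifs at h2 ⊢ <;> omega
  · dsimp only
    split_ifs at h4 ⊢ <;> omega

lemma rtg_wlift {a b : ℕ × Dart Q} (h : Relation.ReflTransGen (WStep D) a b) :
    Relation.ReflTransGen (WStep (c :: D)) (a.1 + 1, a.2) (b.1 + 1, b.2) := by
  induction h with
  | refl => exact Relation.ReflTransGen.refl
  | tail _ h2 ih => exact ih.tail h2.lift

lemma not_step_left {C : List (Beh Q)} {y : Dart Q} (hy : y.2 = false) {b : ℕ × Dart Q} :
    ¬ WStep C (0, y) b := by
  rintro ⟨i, f, _, h2, _, _⟩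
  simp [hy] at h2

lemma terminal_left {C : List (Beh Q)} {y : Dart Q} (hy : y.2 = false) {b : ℕ × Dart Q}
    (h : Relation.ReflTransGen (WStep C) (0, y) b) : b = (0, y) := by
  rcases Relation.ReflTransGen.cases_head h with h | ⟨c, h1, _⟩
  · exact h.symm
  · exact absurd h1 (not_step_left hy)

/-- star ⟹ path -/
lemma wpath_of_walk {i : Bool} {d o : Dart Q}
    (h : Walk c.rel (WRel D) i d o) :
    (i = false → Relation.ReflTransGen (WStep (c :: D)) (if d.2 = true then 0 else 1, d)
        (exitCut (D.length + 1) o, o)) ∧
    (i = true → Relation.ReflTransGen (WStep (c :: D)) (entryCut D.length d + 1, d)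
        (exitCut (D.length + 1) o, o)) := by
  induction h with
  | @exitA d e h1 h2 =>
    refine ⟨fun _ => Relation.ReflTransGen.single ?_, by simp⟩
    refine ⟨0, c, by simp, ?_, h1, by simp [h2, exitCut]⟩
    by_cases h5 : d.2 = true <;> simp [h5]
  | @exitB d e h1 h2 =>
    refine ⟨by simp, fun _ => ?_⟩
    have := rtg_wlift (c := c) h1
    simpa [exitCut, h2] using this
  | @toB d e o h1 h2 _ ih =>
    refine ⟨fun _ => Relation.ReflTransGen.head ?_ (by simpa [entryCut, h2] using ih.2 rfl), by simp⟩
    refine ⟨0, c, by simp, ?_, h1, by simp [h2]⟩
    by_cases h5 : d.2 = true <;> simp [h5]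
  | @toA d e o h1 h2 _ ih =>
    refine ⟨by simp, fun _ => ?_⟩
    have h3 := rtg_wlift (c := c) h1
    have h4 := ih.1 rfl
    simp only [exitCut, h2, Bool.false_eq_true, if_false] at h3 h4
    exact h3.trans h4

/-- path ⟹ star -/
lemma walk_of_wpath {o : Dart Q} {a : ℕ × Dart Q}
    (h : Relation.ReflTransGen (WStep (c :: D)) a (exitCut (D.length + 1) o, o)) :
    (a.1 = (if a.2.2 = true then 0 else 1) → Walk c.rel (WRel D) false a.2 o) ∧
    (∀ j d0, a.1 = j + 1 → Relation.ReflTransGen (WStep D) (entryCut D.length d0, d0) (j, a.2) →
      Walk c.rel (WRel D) true d0 o) := by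
  induction h using Relation.ReflTransGen.head_induction_on with
  | refl =>
    constructor
    · intro h1
      exfalso
      by_cases ho : o.2 = true <;> simp [ho, exitCut] at h1
    · intro j d0 h1 h2
      by_cases ho : o.2 = true
      · simp only [exitCut, ho, if_true] at h1
        have hj : j = D.length := by omega
        subst hj
        refine Walk.exitB ?_ ho
        simpa [WRel, exitCut, ho] using h2
      · simp [exitCut, ho] at h1
  | @head u v hs hrest ih =>
    obtain ⟨i, f, h1, h2, h3, h4⟩ := hs
    cases i with
    | zero =>
      simp only [List.getElem?_cons_zero, Option.some.injEq] at h1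
      subst h1
      have first : u.1 = (if u.2.2 = true then 0 else 1) → Walk c.rel (WRel D) false u.2 o := by
        intro _
        by_cases hv : v.2.2 = true
        · simp only [hv, if_true] at h4
          have := ih.2 0 v.2 (by omega) (by
            simp only [entryCut, hv, if_true]
            exact Relation.ReflTransGen.refl)
          exact Walk.toB h3 hv this
        · have hv' : v.2.2 = false := by simpa using hv
          simp only [hv', Bool.false_eq_true, if_false] at h4
          have hv0 : v = (0, v.2) := by rw [← h4]
          rw [hv0] at hrest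
          have := terminal_left hv' hrest
          simp only [Prod.mk.injEq] at this
          have ho : o = v.2 := this.2
          subst ho
          exact Walk.exitA h3 hv'
      refine ⟨first, ?_⟩
      intro j d0 hj hp
      by_cases hu : u.2.2 = true
      · simp only [hu, if_true] at h2
        omega
      · have hu' : u.2.2 = false := by simpa using hu
        simp only [hu', Bool.false_eq_true, if_false, zero_add] at h2
        have hj0 : j = 0 := by omega
        subst hj0
        refine Walk.toA ?_ hu' (first (by simp [hu', h2]))
        simpa [WRel, exitCut, hu'] using hp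
    | succ k =>
      simp only [List.getElem?_cons_succ] at h1
      constructor
      · intro h5
        exfalso
        split_ifs at h2 h5 <;> omega
      · intro j d0 hj hp
        have hstep : WStep D (j, u.2) (v.1 - 1, v.2) := by
          refine ⟨k, f, h1, ?_, h3, ?_⟩
          · dsimp only
            split_ifs at h2 ⊢ <;> omega
          · dsimp only
            split_ifs at h4 ⊢ <;> omega
        refine ih.2 (v.1 - 1) d0 ?_ (hp.tail hstep)
        split_ifs at h4 <;> omega

end

/-- The star product of a list of behaviours is the walker's relation. -/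
theorem prod_rel_iff (C : List (Beh Q)) (x y : Dart Q) : C.prod.rel x y ↔ WRel C x y := by
  induction C generalizing x y with
  | nil =>
    simp only [List.prod_nil, Beh.one_rel, WRel, entryCut, exitCut, List.length_nil]
    have hx : (if x.2 = true then 0 else 0) = 0 := by split_ifs <;> rfl
    have hy : (if y.2 = true then 0 else 0) = 0 := by split_ifs <;> rfl
    rw [hx, hy]
    constructor
    · rintro rfl
      exact Relation.ReflTransGen.refl
    · intro h
      rcases Relation.ReflTransGen.cases_head h with h | ⟨b, h1, _⟩
      · simpa using h
      · obtain ⟨i, f, h2, _⟩ := h1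
        simp at h2
  | cons c D ih =>
    have h0 : D.prod.rel = WRel D := by
      funext a b
      exact propext (ih a b)
    have hmul : (c :: D).prod.rel x y ↔ starRel c.rel (WRel D) x y := by
      rw [List.prod_cons, Beh.mul_rel, h0]
    rw [hmul]
    constructor
    · intro h
      have := wpath_of_walk h
      by_cases hx : x.2 = true
      · have h1 := this.1 (by simp [hx])
        simpa [WRel, entryCut, hx] using h1
      · have hx' : x.2 = false := by simpa using hx
        have h1 := this.2 (by simp [hx'])
        simpa [WRel, entryCut, hx'] using h1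
    · intro h
      have h1 : Relation.ReflTransGen (WStep (c :: D)) (entryCut (D.length + 1) x, x)
          (exitCut (D.length + 1) y, y) := by simpa [WRel] using h
      have := walk_of_wpath h1
      by_cases hx : x.2 = true
      · have h2 := this.1 (by simp [entryCut, hx])
        simpa [starRel, hx] using h2
      · have hx' : x.2 = false := by simpa using hx
        have h2 := this.2 D.length x (by simp [entryCut, hx']) (by
          simp only [entryCut, hx', Bool.false_eq_true, if_false]
          exact Relation.ReflTransGen.refl)
        simpa [starRel, hx'] using h2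

end Crest.Agent.Lib.TwoWayBeh
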